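import Claimed.Agent.R285.Mag.Sq

/-!
# ROW 285, MAG 6: in the massive phase the coefficient of the free square tends to zero (owner helper30; NO sorry in this file)

`μ = xyMass b > 0`, `A = (2π)² (b + 2b²) e^μ`, `D_y = φ(m-1,y) - φ(0,y)`, `X = m⁻¹ ∑_y D_y`, `aCoef b m = Var X = E X²`.
Heights are path independent, bond covariances decay (`sq_cov_decay`), so each pair `(y,y')` may choose its own pair of paths:
* `|y - y'| ≥ R`: two straight rows: `|E D_y D_y'| ≤ m² A e^{-μR}`                                                   (`sq_row_row`);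
* `|y - y'| < R`: `D_y' = D_y'' + [φ(m-1,y') - φ(m-1,y'')] - [φ(0,y') - φ(0,y'')]` with `|y'' - y| = R` (`y'' = y + R` or `y - R`; `2R ≤ m`);
  a row against a piece of length `ℓ` of the first or the last column costs `ℓ A / (1 - e^{-μ})`                        (`sq_row_col`), here `ℓ < 2R`.
Hence `aCoef b m ≤ A (m² e^{-μR} + 8 R² / ((1 - e^{-μ}) m))`; take `R ~ m^{1/4}`.
-/

set_option autoImplicit false

namespace Claimed.Agent.R285

open MeasureTheory Filter Topology Claims.C0459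

noncomputable section

/-- the constant of `sq_cov_decay`. -/
def magA (b : ℝ) : ℝ := (2 * Real.pi) ^ 2 * (b + 2 * b ^ 2) * Real.exp (xyMass b)

/-- `D_y`. -/
def sqRow (m : ℕ) (hm : 0 < m) (y : Fin m) (φ : (square m).V → ℝ) : ℝ :=
  φ ((⟨m - 1, by omega⟩, y) : Fin m × Fin m) - φ ((⟨0, hm⟩, y) : Fin m × Fin m)

/-- a vertical height difference in the column `c`. -/
def sqCol (m : ℕ) (c y₁ y₂ : Fin m) (φ : (square m).V → ℝ) : ℝ :=
  φ ((c, y₂) : Fin m × Fin m) - φ ((c, y₁) : Fin m × Fin m)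

theorem sq_gr_H {m : ℕ} (x y : ℕ) (hx : x + 1 < m) (hy : y < m) (φ : (square m).V → ℝ) :
    (square m).gr (sqH x y hx hy) φ = φ (sqV (x + 1) y hx hy) - φ (sqV x y (by omega) hy) := rfl

theorem sq_gr_U {m : ℕ} (x y : ℕ) (hx : x < m) (hy : y + 1 < m) (φ : (square m).V → ℝ) :
    (square m).gr (sqU x y hx hy) φ = φ (sqV x (y + 1) hx hy) - φ (sqV x y hx (by omega)) := rfl

/-- products of two finite sums of bond gradients. -/
theorem magEx_fam {G : HGraph} {b : ℝ} {P : Set G.V} (hS : ∀ τ : G.E → ℤ, Summable fun h : G.Conf P => G.wt b τ h.1)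
    {I I' : Type*} [Fintype I] [Fintype I'] (β : I → G.E) (β' : I' → G.E) :
    MagSm G b P (fun φ => (∑ i, G.gr (β i) φ) * ∑ j, G.gr (β' j) φ) ∧
    G.Ex b P (fun φ => (∑ i, G.gr (β i) φ) * ∑ j, G.gr (β' j) φ) =
      ∑ i, ∑ j, G.Ex b P fun φ => G.gr (β i) φ * G.gr (β' j) φ := by
  have e : (fun φ : G.V → ℝ => (∑ i, G.gr (β i) φ) * ∑ j, G.gr (β' j) φ) =
      fun φ => ∑ i, ∑ j, G.gr (β i) φ * G.gr (β' j) φ := by
    funext φ; rw [Finset.sum_mul_sum]
  have h1 : ∀ i, MagSm G b P fun φ => ∑ j, G.gr (β i) φ * G.gr (β' j) φ :=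
    fun i => MagSm.sum _ fun j _ => magSm_gr_gr hS _ _
  rw [e]
  refine ⟨MagSm.sum _ fun i _ => h1 i, ?_⟩
  rw [magEx_sum _ fun i _ => h1 i]
  exact Finset.sum_congr rfl fun i _ => magEx_sum _ fun j _ => magSm_gr_gr hS _ _

theorem latNorm_ge_snd (z : ℤ × ℤ) : |(z.2 : ℝ)| ≤ (latNorm z : ℝ) := by
  unfold latNorm
  have h : |(z.2 : ℝ)| = ((z.2.natAbs : ℕ) : ℝ) := by
    rw [Nat.cast_natAbs, Int.cast_abs]
  rw [h]
  exact_mod_cast le_max_right _ _

theorem latNorm_ge_fst (z : ℤ × ℤ) : |(z.1 : ℝ)| ≤ (latNorm z : ℝ) := by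
  unfold latNorm
  have h : |(z.1 : ℝ)| = ((z.1.natAbs : ℕ) : ℝ) := by
    rw [Nat.cast_natAbs, Int.cast_abs]
  rw [h]
  exact_mod_cast le_max_left _ _
theorem mag_geo_sum (μ : ℝ) (hμ : 0 < μ) (n : ℕ) : ∑ x : Fin n, Real.exp (-(μ * (x.1 : ℝ))) ≤ 1 / (1 - Real.exp (-μ)) := by
  have hr0 : 0 ≤ Real.exp (-μ) := (Real.exp_pos _).le
  have hr1 : Real.exp (-μ) < 1 := by rw [Real.exp_lt_one_iff]; linarith
  have e : ∀ x : ℕ, Real.exp (-(μ * (x : ℝ))) = Real.exp (-μ) ^ x := by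
    intro x
    rw [← Real.exp_nat_mul]; congr 1; ring
  rw [Fin.sum_univ_eq_sum_range (fun x => Real.exp (-(μ * (x : ℝ))))]
  simp only [e]
  rw [one_div, ← tsum_geometric_of_lt_one hr0 hr1]
  exact (summable_geometric_of_lt_one hr0 hr1).sum_le_tsum _ fun i _ => pow_nonneg hr0 i

theorem mag_geo_sum' (μ : ℝ) (hμ : 0 < μ) (n : ℕ) : ∑ x : Fin n, Real.exp (-(μ * ((n : ℝ) - (x.1 : ℝ)))) ≤ 1 / (1 - Real.exp (-μ)) := by
  refine le_trans ?_ (mag_geo_sum μ hμ n)
  rw [Fin.sum_univ_eq_sum_range (fun x => Real.exp (-(μ * ((n : ℝ) - (x : ℝ))))),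
    Fin.sum_univ_eq_sum_range (fun x => Real.exp (-(μ * (x : ℝ)))), ← Finset.sum_range_reflect]
  refine Finset.sum_le_sum fun x hx => ?_
  have hx' : x < n := Finset.mem_range.1 hx
  apply Real.exp_le_exp.2
  have : ((n - 1 - x : ℕ) : ℝ) = (n : ℝ) - 1 - x := by
    rw [Nat.cast_sub (by omega), Nat.cast_sub (by omega)]; simp
  rw [this]
  nlinarith


theorem mag_sqrt_sqrt_tendsto : Tendsto (fun m : ℕ => Nat.sqrt (Nat.sqrt m)) atTop atTop := by
  refine tendsto_atTop.2 fun N => ?_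
  filter_upwards [eventually_ge_atTop ((N * N) * (N * N))] with m hm
  exact Nat.le_sqrt.2 (Nat.le_sqrt.2 hm)

theorem mag_limit_aux (μ : ℝ) (hμ : 0 < μ) (c : ℝ) :
    Tendsto (fun R : ℕ => ((R : ℝ) + 1) ^ 8 * Real.exp (-(μ * R)) + c / (R : ℝ) ^ 2) atTop (𝓝 0) := by
  have h1 : Tendsto (fun R : ℕ => μ * ((R : ℝ) + 1)) atTop atTop :=
    Tendsto.const_mul_atTop hμ (tendsto_atTop_add_const_right _ _ tendsto_natCast_atTop_atTop)
  have h2 := ((Real.tendsto_pow_mul_exp_neg_atTop_nhds_zero 8).comp h1).const_mul (μ⁻¹ ^ 8 * Real.exp μ)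
  have h3 : Tendsto (fun R : ℕ => c / (R : ℝ) ^ 2) atTop (𝓝 0) :=
    Tendsto.div_atTop tendsto_const_nhds ((tendsto_pow_atTop (by norm_num)).comp tendsto_natCast_atTop_atTop)
  have := h2.add h3
  simp only [mul_zero, add_zero] at this
  refine this.congr fun R => ?_
  congr 1
  simp only [Function.comp]
  have e : Real.exp (-(μ * (R : ℝ))) = Real.exp μ * Real.exp (-(μ * ((R : ℝ) + 1))) := by
    rw [← Real.exp_add]; congr 1; ring
  rw [e, mul_pow]
  field_simp

variable (b : ℝ) (hb : 0 < b) (m : ℕ) (hm : 0 < m)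

/-- summability hypothesis of `Mag/Cov.lean` on the square. -/
theorem sq_summable (τ : (square m).E → ℤ) : Summable fun h : (square m).Conf {sqO m hm} => (square m).wt b τ h.1 :=
  mag_wt_summable (sq_exact m hm) b τ

theorem magA_nonneg (hb : 0 < b) : 0 ≤ magA b := by unfold magA; positivity

/-- telescoping. -/
theorem sqRow_eq (y : Fin m) (φ : (square m).V → ℝ) :
    sqRow m hm y φ = ∑ x : Fin (m - 1), (square m).gr (sqH x.1 y.1 (by omega) y.2) φ := by
  set g : ℕ → ℝ := fun x => if h : x < m then φ (sqV x y.1 h y.2) else 0 with hg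
  have h1 : ∀ x : Fin (m - 1), (square m).gr (sqH x.1 y.1 (by omega) y.2) φ = g (x.1 + 1) - g x.1 := by
    intro x
    have hx : x.1 + 1 < m := by omega
    have hx' : x.1 < m := by omega
    rw [sq_gr_H]
    simp only [hg, hx, hx', dif_pos]
  rw [Finset.sum_congr rfl fun x _ => h1 x, Fin.sum_univ_eq_sum_range (fun x => g (x + 1) - g x), Finset.sum_range_sub]
  have h2 : m - 1 < m := by omega
  simp only [hg, h2, hm, dif_pos]
  rfl

/-- telescoping. -/
theorem sqCol_eq (c y₁ y₂ : Fin m) (h : y₁ ≤ y₂) (φ : (square m).V → ℝ) :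
    sqCol m c y₁ y₂ φ = ∑ t : Fin (y₂.1 - y₁.1), (square m).gr (sqU c.1 (y₁.1 + t.1) c.2 (by omega)) φ := by
  set g : ℕ → ℝ := fun t => if h : y₁.1 + t < m then φ (sqV c.1 (y₁.1 + t) c.2 h) else 0 with hg
  have h1 : ∀ t : Fin (y₂.1 - y₁.1), (square m).gr (sqU c.1 (y₁.1 + t.1) c.2 (by omega)) φ = g (t.1 + 1) - g t.1 := by
    intro t
    have hx : y₁.1 + (t.1 + 1) < m := by omega
    have hx' : y₁.1 + t.1 < m := by omega
    rw [sq_gr_U]
    simp only [hg, hx, hx', dif_pos]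
    rfl
  rw [Finset.sum_congr rfl fun x _ => h1 x, Fin.sum_univ_eq_sum_range (fun x => g (x + 1) - g x), Finset.sum_range_sub]
  have h' : y₁.1 ≤ y₂.1 := h
  have h2 : y₁.1 + (y₂.1 - y₁.1) < m := by omega
  have h3 : y₁.1 + 0 < m := by omega
  simp only [hg, h2, h3, dif_pos]
  have e : y₁.1 + (y₂.1 - y₁.1) = y₂.1 := by omega
  simp only [e, add_zero]
  rfl


include hb in
/-- `sq_cov_decay` with any lower bound `D` of the distance. -/
theorem sq_cov_le (e f : (square m).E) (D : ℝ) (hD : D ≤ latNorm ((sqBond f).1 - (sqBond e).1)) :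
    |sqCov b m hm e f| ≤ magA b * Real.exp (-(xyMass b * D)) := by
  refine (sq_cov_decay b hb m hm e f).trans ?_
  unfold magA
  refine mul_le_mul_of_nonneg_left ?_ (by positivity)
  apply Real.exp_le_exp.2
  have := mul_le_mul_of_nonneg_left hD (xyMass_nonneg hb)
  linarith

include hb in
theorem sq_row_row (y y' : Fin m) :
    MagSm (square m) b {sqO m hm} (fun φ => sqRow m hm y φ * sqRow m hm y' φ) ∧
    |(square m).Ex b {sqO m hm} fun φ => sqRow m hm y φ * sqRow m hm y' φ| ≤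
      (m : ℝ) ^ 2 * magA b * Real.exp (-(xyMass b * |(y'.1 : ℝ) - (y.1 : ℝ)|)) := by
  have key := magEx_fam (sq_summable b m hm) (fun x : Fin (m - 1) => sqH x.1 y.1 (by omega) y.2)
    (fun x : Fin (m - 1) => sqH x.1 y'.1 (by omega) y'.2)
  have e : (fun φ : (square m).V → ℝ => sqRow m hm y φ * sqRow m hm y' φ) = fun φ =>
      (∑ x : Fin (m - 1), (square m).gr (sqH x.1 y.1 (by omega) y.2) φ) *
        ∑ x : Fin (m - 1), (square m).gr (sqH x.1 y'.1 (by omega) y'.2) φ := by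
    funext φ; rw [sqRow_eq, sqRow_eq]
  rw [e]
  refine ⟨key.1, ?_⟩
  rw [key.2]
  have hA := magA_nonneg b hb
  calc |∑ i : Fin (m - 1), ∑ j : Fin (m - 1), (square m).Ex b {sqO m hm} fun φ =>
          (square m).gr (sqH i.1 y.1 (by omega) y.2) φ * (square m).gr (sqH j.1 y'.1 (by omega) y'.2) φ|
      ≤ ∑ i : Fin (m - 1), ∑ j : Fin (m - 1), magA b * Real.exp (-(xyMass b * |(y'.1 : ℝ) - (y.1 : ℝ)|)) := by
        refine (Finset.abs_sum_le_sum_abs _ _).trans (Finset.sum_le_sum fun i _ => ?_)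
        refine (Finset.abs_sum_le_sum_abs _ _).trans (Finset.sum_le_sum fun j _ => ?_)
        refine sq_cov_le b hb m hm _ _ _ ?_
        refine le_trans ?_ (latNorm_ge_snd _)
        rw [sqBond_H, sqBond_H]
        simp
    _ = ((m - 1 : ℕ) : ℝ) ^ 2 * (magA b * Real.exp (-(xyMass b * |(y'.1 : ℝ) - (y.1 : ℝ)|))) := by
        simp only [Finset.sum_const, Finset.card_univ, Fintype.card_fin, nsmul_eq_mul]
        ring
    _ ≤ (m : ℝ) ^ 2 * (magA b * Real.exp (-(xyMass b * |(y'.1 : ℝ) - (y.1 : ℝ)|))) := by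
        refine mul_le_mul_of_nonneg_right ?_ (by positivity)
        have : ((m - 1 : ℕ) : ℝ) ≤ (m : ℝ) := by exact_mod_cast Nat.sub_le m 1
        gcongr
    _ = _ := by ring


include hb in
theorem sq_row_col_aux (hμ : 0 < xyMass b) (y c y₁ y₂ : Fin m) (hc : c.1 = 0 ∨ c.1 = m - 1) (h12 : y₁ ≤ y₂) :
    MagSm (square m) b {sqO m hm} (fun φ => sqRow m hm y φ * sqCol m c y₁ y₂ φ) ∧
    |(square m).Ex b {sqO m hm} fun φ => sqRow m hm y φ * sqCol m c y₁ y₂ φ| ≤
      ((y₂.1 : ℝ) - (y₁.1 : ℝ)) * magA b / (1 - Real.exp (-xyMass b)) := by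
  have key := magEx_fam (sq_summable b m hm) (fun x : Fin (m - 1) => sqH x.1 y.1 (by omega) y.2)
    (fun t : Fin (y₂.1 - y₁.1) => sqU c.1 (y₁.1 + t.1) c.2 (by omega))
  have e : (fun φ : (square m).V → ℝ => sqRow m hm y φ * sqCol m c y₁ y₂ φ) = fun φ =>
      (∑ x : Fin (m - 1), (square m).gr (sqH x.1 y.1 (by omega) y.2) φ) *
        ∑ t : Fin (y₂.1 - y₁.1), (square m).gr (sqU c.1 (y₁.1 + t.1) c.2 (by omega)) φ := by
    funext φ; rw [sqRow_eq, sqCol_eq m c y₁ y₂ h12]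
  rw [e]
  refine ⟨key.1, ?_⟩
  rw [key.2]
  have hA := magA_nonneg b hb
  have h12' : y₁.1 ≤ y₂.1 := h12
  -- the distance function
  obtain ⟨D, hD, hsum⟩ : ∃ D : Fin (m - 1) → ℝ, (∀ x : Fin (m - 1), D x ≤ |((c.1 : ℤ) - (x.1 : ℤ) : ℤ)|) ∧
      ∑ x : Fin (m - 1), Real.exp (-(xyMass b * D x)) ≤ 1 / (1 - Real.exp (-xyMass b)) := by
    rcases hc with hc | hc
    · refine ⟨fun x => (x.1 : ℝ), fun x => ?_, mag_geo_sum _ hμ _⟩
      rw [hc]; simp
    · refine ⟨fun x => ((m - 1 : ℕ) : ℝ) - (x.1 : ℝ), fun x => ?_, mag_geo_sum' _ hμ _⟩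
      rw [hc]
      push_cast
      exact le_abs_self _
  calc |∑ i : Fin (m - 1), ∑ j : Fin (y₂.1 - y₁.1), (square m).Ex b {sqO m hm} fun φ =>
          (square m).gr (sqH i.1 y.1 (by omega) y.2) φ * (square m).gr (sqU c.1 (y₁.1 + j.1) c.2 (by omega)) φ|
      ≤ ∑ i : Fin (m - 1), ∑ j : Fin (y₂.1 - y₁.1), magA b * Real.exp (-(xyMass b * D i)) := by
        refine (Finset.abs_sum_le_sum_abs _ _).trans (Finset.sum_le_sum fun i _ => ?_)
        refine (Finset.abs_sum_le_sum_abs _ _).trans (Finset.sum_le_sum fun j _ => ?_)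
        refine sq_cov_le b hb m hm _ _ _ ?_
        refine le_trans (hD i) (le_trans ?_ (latNorm_ge_fst _))
        rw [sqBond_H, sqBond_U]
        simp
    _ = ((y₂.1 - y₁.1 : ℕ) : ℝ) * magA b * ∑ i : Fin (m - 1), Real.exp (-(xyMass b * D i)) := by
        simp only [Finset.sum_const, Finset.card_univ, Fintype.card_fin, nsmul_eq_mul]
        rw [Finset.mul_sum]
        refine Finset.sum_congr rfl fun i _ => by ring
    _ ≤ ((y₂.1 - y₁.1 : ℕ) : ℝ) * magA b * (1 / (1 - Real.exp (-xyMass b))) :=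
        mul_le_mul_of_nonneg_left hsum (by positivity)
    _ = _ := by
        rw [Nat.cast_sub h12']; ring

include hb in
theorem sq_row_col (hμ : 0 < xyMass b) (y c y₁ y₂ : Fin m) (hc : c.1 = 0 ∨ c.1 = m - 1) :
    MagSm (square m) b {sqO m hm} (fun φ => sqRow m hm y φ * sqCol m c y₁ y₂ φ) ∧
    |(square m).Ex b {sqO m hm} fun φ => sqRow m hm y φ * sqCol m c y₁ y₂ φ| ≤
      |(y₂.1 : ℝ) - (y₁.1 : ℝ)| * magA b / (1 - Real.exp (-xyMass b)) := by
  rcases le_total y₁ y₂ with h | h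
  · have := sq_row_col_aux b hb m hm hμ y c y₁ y₂ hc h
    have h' : (y₁.1 : ℝ) ≤ (y₂.1 : ℝ) := by exact_mod_cast h
    rw [abs_of_nonneg (show (0:ℝ) ≤ (y₂.1 : ℝ) - (y₁.1 : ℝ) by linarith)]
    exact this
  · have := sq_row_col_aux b hb m hm hμ y c y₂ y₁ hc h
    have h' : (y₂.1 : ℝ) ≤ (y₁.1 : ℝ) := by exact_mod_cast h
    have e : (fun φ : (square m).V → ℝ => sqRow m hm y φ * sqCol m c y₁ y₂ φ) =
        fun φ => (-1) * (sqRow m hm y φ * sqCol m c y₂ y₁ φ) := by
      funext φ; unfold sqCol; ring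
    rw [e, magEx_const_mul, abs_mul, abs_neg, abs_one, one_mul,
      abs_of_nonpos (show (y₂.1 : ℝ) - (y₁.1 : ℝ) ≤ 0 by linarith), neg_sub]
    exact ⟨this.1.const_mul _, this.2⟩


include hb in
theorem sq_row_near (hμ : 0 < xyMass b) (R : ℕ) (hR : 2 * R ≤ m) (y y' : Fin m) (hyy : |(y'.1 : ℝ) - (y.1 : ℝ)| < R) :
    |(square m).Ex b {sqO m hm} fun φ => sqRow m hm y φ * sqRow m hm y' φ| ≤
      (m : ℝ) ^ 2 * magA b * Real.exp (-(xyMass b * R)) + 4 * R * magA b / (1 - Real.exp (-xyMass b)) := by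
  have hA := magA_nonneg b hb
  have hden : 0 < 1 - Real.exp (-xyMass b) := by
    have : Real.exp (-xyMass b) < 1 := by rw [Real.exp_lt_one_iff]; linarith
    linarith
  -- the far row
  obtain ⟨y'', hy''⟩ : ∃ y'' : Fin m, |(y''.1 : ℝ) - (y.1 : ℝ)| = R := by
    by_cases h : y.1 + R < m
    · refine ⟨⟨y.1 + R, h⟩, ?_⟩
      push_cast
      rw [add_sub_cancel_left]
      exact abs_of_nonneg (Nat.cast_nonneg _)
    · have h1 : R ≤ y.1 := by have := y.2; omega
      refine ⟨⟨y.1 - R, by have := y.2; omega⟩, ?_⟩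
      push_cast [Nat.cast_sub h1]
      rw [sub_sub_cancel_left, abs_neg]
      exact abs_of_nonneg (Nat.cast_nonneg _)
  set c0 : Fin m := ⟨0, hm⟩
  set c1 : Fin m := ⟨m - 1, by omega⟩
  have e : (fun φ : (square m).V → ℝ => sqRow m hm y φ * sqRow m hm y' φ) = fun φ =>
      (sqRow m hm y φ * sqRow m hm y'' φ + sqRow m hm y φ * sqCol m c1 y'' y' φ)
        + (-1) * (sqRow m hm y φ * sqCol m c0 y'' y' φ) := by
    funext φ; unfold sqRow sqCol; ring
  have r0 := sq_row_row b hb m hm y y''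
  have r1 := sq_row_col b hb m hm hμ y c1 y'' y' (Or.inr rfl)
  have r2 := sq_row_col b hb m hm hμ y c0 y'' y' (Or.inl rfl)
  rw [e, magEx_add (r0.1.add r1.1) (r2.1.const_mul _), magEx_add r0.1 r1.1, magEx_const_mul]
  have hlen : |(y'.1 : ℝ) - (y''.1 : ℝ)| ≤ 2 * R := by
    have : (y'.1 : ℝ) - (y''.1 : ℝ) = ((y'.1 : ℝ) - y.1) + -((y''.1 : ℝ) - y.1) := by ring
    rw [this]
    refine (abs_add_le _ _).trans ?_
    rw [abs_neg, hy'']
    linarith
  have hcol : |(y'.1 : ℝ) - (y''.1 : ℝ)| * magA b / (1 - Real.exp (-xyMass b)) ≤ 2 * R * magA b / (1 - Real.exp (-xyMass b)) := by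
    gcongr
  have b0 := r0.2
  rw [hy''] at b0
  have b1 := r1.2.trans hcol
  have b2 := r2.2.trans hcol
  have t1 := abs_le.1 b0
  have t2 := abs_le.1 b1
  have t3 := abs_le.1 b2
  have e4 : 4 * (R : ℝ) * magA b / (1 - Real.exp (-xyMass b)) = 2 * (2 * R * magA b / (1 - Real.exp (-xyMass b))) := by ring
  rw [e4, abs_le]
  constructor <;> linarith [t1.1, t1.2, t2.1, t2.2, t3.1, t3.2]


theorem sq_ratio_neg (τ : (square m).E → ℤ) : (square m).ratio b {sqO m hm} (-τ) = (square m).ratio b {sqO m hm} τ := by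
  rw [mag_ratio_eq (sq_exact m hm), mag_ratio_eq (sq_exact m hm), magDiv_neg, xyChar_neg]

theorem sq_Ex_gr (e : (square m).E) : (square m).Ex b {sqO m hm} ((square m).gr e) = 0 := by
  rw [magEx_gr (sq_summable b m hm), sq_ratio_neg, sub_self, mul_zero]

theorem sq_Ex_row (y : Fin m) : MagSm (square m) b {sqO m hm} (sqRow m hm y) ∧ (square m).Ex b {sqO m hm} (sqRow m hm y) = 0 := by
  have e : sqRow m hm y = fun φ => ∑ x : Fin (m - 1), (square m).gr (sqH x.1 y.1 (by omega) y.2) φ := by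
    funext φ; rw [sqRow_eq]
  rw [e]
  refine ⟨MagSm.sum _ fun x _ => magSm_gr (sq_summable b m hm) _, ?_⟩
  rw [magEx_sum _ fun x _ => magSm_gr (sq_summable b m hm) _]
  exact Finset.sum_eq_zero fun x _ => sq_Ex_gr b m hm _

theorem sq_aCoef_eq : aCoef b m = (square m).Ex b {sqO m hm} fun φ => ((m : ℝ)⁻¹ * ∑ y : Fin m, sqRow m hm y φ) ^ 2 := by
  have h0 : (square m).Ex b {sqO m hm} (fun φ => (m : ℝ)⁻¹ * ∑ y : Fin m, sqRow m hm y φ) = 0 := by
    rw [magEx_const_mul, magEx_sum _ fun y _ => (sq_Ex_row b m hm y).1,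
      Finset.sum_eq_zero fun y _ => (sq_Ex_row b m hm y).2, mul_zero]
  have h1 : aCoef b m = (square m).Vr b {sqO m hm} fun φ => (m : ℝ)⁻¹ * ∑ y : Fin m, sqRow m hm y φ := by
    simp only [aCoef, dif_neg hm.ne']
    rfl
  rw [h1]
  unfold HGraph.Vr
  rw [h0]
  simp


include hb in
theorem sq_aCoef_nonneg : 0 ≤ aCoef b m := by
  rcases Nat.eq_zero_or_pos m with h0 | hm
  · subst h0; simp [aCoef]
  · rw [sq_aCoef_eq b m hm]
    exact magEx_nonneg hb.le fun φ => sq_nonneg _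

open Classical in
theorem sq_near_card (R : ℕ) (y : Fin m) :
    ((Finset.univ.filter fun y' : Fin m => |(y'.1 : ℝ) - (y.1 : ℝ)| < R).card : ℝ) ≤ 2 * R := by
  have h : (Finset.univ.filter fun y' : Fin m => |(y'.1 : ℝ) - (y.1 : ℝ)| < R).card ≤ (Finset.range (2 * R)).card := by
    have key : ∀ y' : Fin m, |(y'.1 : ℝ) - (y.1 : ℝ)| < R → y.1 < y'.1 + R ∧ y'.1 < y.1 + R := by
      intro y' h
      rw [abs_lt] at h
      constructor
      · have : (y.1 : ℝ) < (y'.1 : ℝ) + R := by linarith [h.1]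
        exact_mod_cast this
      · have : (y'.1 : ℝ) < (y.1 : ℝ) + R := by linarith [h.2]
        exact_mod_cast this
    refine Finset.card_le_card_of_injOn (fun y' => y'.1 + R - y.1) ?_ ?_
    · intro y' hy'
      have := key y' (by simpa using hy')
      simp only [Finset.coe_range, Set.mem_Iio]
      omega
    · intro y1 h1 y2 h2 h12
      have k1 := key y1 (by simpa using h1)
      have k2 := key y2 (by simpa using h2)
      simp only at h12
      apply Fin.ext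
      omega
  rw [Finset.card_range] at h
  exact_mod_cast h

include hb in
theorem sq_aCoef_le (hμ : 0 < xyMass b) (R : ℕ) (hR1 : 1 ≤ R) (hR : 2 * R ≤ m) :
    aCoef b m ≤ magA b * ((m : ℝ) ^ 2 * Real.exp (-(xyMass b * R)) + 8 * (R : ℝ) ^ 2 / ((1 - Real.exp (-xyMass b)) * m)) := by
  classical
  have hm : 0 < m := by omega
  have hA := magA_nonneg b hb
  have hden : 0 < 1 - Real.exp (-xyMass b) := by
    have : Real.exp (-xyMass b) < 1 := by rw [Real.exp_lt_one_iff]; linarith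
    linarith
  have hm' : (0 : ℝ) < m := by exact_mod_cast hm
  set ε : ℝ := (m : ℝ) ^ 2 * magA b * Real.exp (-(xyMass b * R)) with hε
  set κ : ℝ := 4 * R * magA b / (1 - Real.exp (-xyMass b)) with hκ
  have hκ0 : 0 ≤ κ := by rw [hκ]; positivity
  rw [sq_aCoef_eq b m hm]
  have e : (fun φ : (square m).V → ℝ => ((m : ℝ)⁻¹ * ∑ y : Fin m, sqRow m hm y φ) ^ 2) = fun φ =>
      ((m : ℝ)⁻¹) ^ 2 * ∑ y : Fin m, ∑ y' : Fin m, sqRow m hm y φ * sqRow m hm y' φ := by
    funext φ; rw [mul_pow, sq (∑ y : Fin m, sqRow m hm y φ), Finset.sum_mul_sum]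
  have s1 : ∀ y : Fin m, MagSm (square m) b {sqO m hm} fun φ => ∑ y' : Fin m, sqRow m hm y φ * sqRow m hm y' φ :=
    fun y => MagSm.sum _ fun y' _ => (sq_row_row b hb m hm y y').1
  rw [e, magEx_const_mul, magEx_sum _ fun y _ => s1 y]
  have pair : ∀ y y' : Fin m, (square m).Ex b {sqO m hm} (fun φ => sqRow m hm y φ * sqRow m hm y' φ) ≤
      ε + if |(y'.1 : ℝ) - (y.1 : ℝ)| < R then κ else 0 := by
    intro y y'
    refine (le_abs_self _).trans ?_
    split_ifs with h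
    · exact sq_row_near b hb m hm hμ R hR y y' h
    · rw [add_zero]
      refine (sq_row_row b hb m hm y y').2.trans ?_
      rw [hε]
      refine mul_le_mul_of_nonneg_left ?_ (by positivity)
      apply Real.exp_le_exp.2
      have := mul_le_mul_of_nonneg_left (not_lt.1 h) hμ.le
      linarith
  have row : ∀ y : Fin m, (square m).Ex b {sqO m hm} (fun φ => ∑ y' : Fin m, sqRow m hm y φ * sqRow m hm y' φ) ≤
      m * ε + 2 * R * κ := by
    intro y
    rw [magEx_sum _ fun y' _ => (sq_row_row b hb m hm y y').1]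
    refine (Finset.sum_le_sum fun y' _ => pair y y').trans ?_
    rw [Finset.sum_add_distrib, Finset.sum_const, Finset.card_univ, Fintype.card_fin, nsmul_eq_mul,
      ← Finset.sum_filter, Finset.sum_const, nsmul_eq_mul]
    have := mul_le_mul_of_nonneg_right (sq_near_card m R y) hκ0
    linarith
  have tot : ∑ y : Fin m, (square m).Ex b {sqO m hm} (fun φ => ∑ y' : Fin m, sqRow m hm y φ * sqRow m hm y' φ) ≤
      m * (m * ε + 2 * R * κ) := by
    refine (Finset.sum_le_sum fun y _ => row y).trans ?_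
    rw [Finset.sum_const, Finset.card_univ, Fintype.card_fin, nsmul_eq_mul]
  refine (mul_le_mul_of_nonneg_left tot (by positivity)).trans (le_of_eq ?_)
  rw [hε, hκ]
  field_simp
  ring


include hb in
theorem sq_aCoef_tendsto (hμ : 0 < xyMass b) : Tendsto (aCoef b) atTop (𝓝 0) := by
  have hA := magA_nonneg b hb
  have hden : 0 < 1 - Real.exp (-xyMass b) := by
    have : Real.exp (-xyMass b) < 1 := by rw [Real.exp_lt_one_iff]; linarith
    linarith
  have hlim := ((mag_limit_aux (xyMass b) hμ (8 / (1 - Real.exp (-xyMass b)))).comp mag_sqrt_sqrt_tendsto).const_mul (magA b)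
  rw [mul_zero] at hlim
  refine tendsto_of_tendsto_of_tendsto_of_le_of_le' tendsto_const_nhds hlim
    (Eventually.of_forall fun m => sq_aCoef_nonneg b hb m) ?_
  filter_upwards [eventually_ge_atTop 16] with m hm
  set R := Nat.sqrt (Nat.sqrt m) with hR
  have hR2 : 2 ≤ R := Nat.le_sqrt.2 (Nat.le_sqrt.2 (by omega))
  have h4 : R * R * (R * R) ≤ m := by
    have h1 : R * R ≤ Nat.sqrt m := Nat.sqrt_le (Nat.sqrt m)
    have h2 : Nat.sqrt m * Nat.sqrt m ≤ m := Nat.sqrt_le m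
    exact (Nat.mul_le_mul h1 h1).trans h2
  have h5 : m < (R + 1) * (R + 1) * ((R + 1) * (R + 1)) := by
    have h1 : Nat.sqrt m < (R + 1) * (R + 1) := Nat.lt_succ_sqrt (Nat.sqrt m)
    have h2 : m < (Nat.sqrt m + 1) * (Nat.sqrt m + 1) := Nat.lt_succ_sqrt m
    exact h2.trans_le (Nat.mul_le_mul h1 h1)
  have h2R : 2 * R ≤ m := by nlinarith
  refine (sq_aCoef_le b hb m hμ R (by omega) h2R).trans ?_
  refine mul_le_mul_of_nonneg_left ?_ hA
  simp only [Function.comp]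
  have hRr : (2 : ℝ) ≤ R := by exact_mod_cast hR2
  have h4r : (R : ℝ) ^ 4 ≤ m := by
    have : ((R * R * (R * R) : ℕ) : ℝ) ≤ m := by exact_mod_cast h4
    push_cast at this; nlinarith
  have h5r : (m : ℝ) ≤ ((R : ℝ) + 1) ^ 4 := by
    have : (m : ℝ) ≤ (((R + 1) * (R + 1) * ((R + 1) * (R + 1)) : ℕ) : ℝ) := by exact_mod_cast h5.le
    push_cast at this; nlinarith
  have hm0 : (0 : ℝ) < m := by
    have : (16 : ℝ) ≤ m := by exact_mod_cast hm
    linarith
  refine add_le_add ?_ ?_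
  · refine mul_le_mul_of_nonneg_right ?_ (Real.exp_pos _).le
    calc (m : ℝ) ^ 2 ≤ (((R : ℝ) + 1) ^ 4) ^ 2 := by gcongr
      _ = ((R : ℝ) + 1) ^ 8 := by ring
  · rw [div_div, div_le_div_iff₀ (by positivity) (by positivity)]
    have : (R : ℝ) ^ 2 * (R : ℝ) ^ 2 ≤ m := by nlinarith
    have h8 : 0 ≤ 8 * (1 - Real.exp (-xyMass b)) := by positivity
    nlinarith [mul_le_mul_of_nonneg_left this h8]


include hb in
/-- **the massive phase has coefficient zero**. -/
theorem aLim_eq_zero_of_mass_pos (hμ : 0 < xyMass b) : aLim b = 0 := (sq_aCoef_tendsto b hb hμ).limUnder_eq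

include hb in
/-- **replacement of [C] Proposition 4.1** in the chain: all that [C] Section 6 and the route to `b_c < ∞` use. -/
theorem mass_zero_of_aLim_pos (h : 0 < aLim b) : xyMass b = 0 := by
  by_contra hne
  have hμ : 0 < xyMass b := lt_of_le_of_ne (xyMass_nonneg hb) (Ne.symm hne)
  rw [aLim_eq_zero_of_mass_pos b hb hμ] at h
  exact lt_irrefl _ h

end

end Claimed.Agent.R285
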