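import Claimed.Agent.R285.Mag.Defs
import Claimed.Agent.R285.Bc.Bes

/-!
# ROW 285, MAG 1: the Bessel recurrence (leaf L-MAG-BES)

`k p_b(k) = (b/2)(p_b(k-1) - p_b(k+1))`.  Route A: `bes_fourier` (`Rsd/Bes.lean`) + integration by parts
(`(b/2)(cos((k-1)t) - cos((k+1)t)) = b sin t sin kt`, `d/dt e^{b(cos t - 1)} = -b sin t e^{..}`, boundary terms vanish).
Route B: the power series, termwise: `1/(m!(m+k-1)!) - 1/((m-1)!(m+k)!) = k/(m!(m+k)!)` for `k ≥ 1`; `k ≤ -1` by `bes_neg`; `k = 0` by `bes_neg`.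
-/

set_option autoImplicit false

namespace Claimed.Agent.R285

noncomputable section

open BC1 in
theorem mag_besT_step (b : ℝ) (n m : ℕ) :
    ((n : ℝ) + 1) * besT b (n + 1) (m + 1) = b / 2 * (besT b n (m + 1) - besT b (n + 2) m) := by
  unfold besT
  have e1 : m + 1 + n = (m + n) + 1 := by ring
  have e2 : m + (n + 2) = (m + n) + 1 + 1 := by ring
  have e3 : m + 1 + (n + 1) = (m + n) + 1 + 1 := by ring
  have p1 : 2 * (m + 1) + n = (2 * m + n) + 2 := by ring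
  have p2 : 2 * m + (n + 2) = (2 * m + n) + 2 := by ring
  have p3 : 2 * (m + 1) + (n + 1) = (2 * m + n) + 3 := by ring
  rw [e1, e2, e3, p1, p2, p3]
  simp only [Nat.factorial_succ, Nat.cast_mul, Nat.cast_add, Nat.cast_one]
  have f1 : (m.factorial : ℝ) ≠ 0 := by positivity
  have f2 : ((m + n).factorial : ℝ) ≠ 0 := by positivity
  have f3 : ((m : ℝ) + 1) ≠ 0 := by positivity
  have f4 : ((m : ℝ) + n + 1) ≠ 0 := by positivity
  have f5 : ((m : ℝ) + n + 1 + 1) ≠ 0 := by positivity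
  field_simp
  ring

open BC1 in
theorem mag_besT_zero (b : ℝ) (n : ℕ) :
    ((n : ℝ) + 1) * besT b (n + 1) 0 = b / 2 * besT b n 0 := by
  unfold besT
  simp only [Nat.mul_zero, Nat.zero_add, Nat.factorial_zero, Nat.cast_one, one_mul, Nat.factorial_succ,
    Nat.cast_mul, Nat.cast_add]
  have f2 : (n.factorial : ℝ) ≠ 0 := by positivity
  have f4 : ((n : ℝ) + 1) ≠ 0 := by positivity
  field_simp
  ring

open BC1 in
theorem mag_bes_rec_nat (b : ℝ) (n : ℕ) :
    ((n : ℝ) + 1) * bes b ((n + 1 : ℕ) : ℤ) = b / 2 * (bes b (n : ℤ) - bes b ((n + 2 : ℕ) : ℤ)) := by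
  rw [bc1_bes_nat, bc1_bes_nat, bc1_bes_nat]
  have h0 := bc1_besT_summable b n
  have h1 := bc1_besT_summable b (n + 1)
  have h2 := bc1_besT_summable b (n + 2)
  rw [h0.tsum_eq_zero_add, h1.tsum_eq_zero_add]
  have h0' : Summable fun m => besT b n (m + 1) := (summable_nat_add_iff 1).2 h0
  have h1' : Summable fun m => besT b (n + 1) (m + 1) := (summable_nat_add_iff 1).2 h1
  have key : ((n : ℝ) + 1) * ∑' m, besT b (n + 1) (m + 1)
      = b / 2 * (∑' m, besT b n (m + 1) - ∑' m, besT b (n + 2) m) := by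
    rw [← h0'.tsum_sub h2, ← tsum_mul_left, ← tsum_mul_left]
    exact tsum_congr fun m => mag_besT_step b n m
  have z := mag_besT_zero b n
  calc _ = Real.exp (-b) * (((n : ℝ) + 1) * besT b (n + 1) 0 + ((n : ℝ) + 1) * ∑' m, besT b (n + 1) (m + 1)) := by ring
    _ = _ := by rw [z, key]; ring

theorem mag_bes_rec (b : ℝ) (k : ℤ) : (k : ℝ) * bes b k = b / 2 * (bes b (k - 1) - bes b (k + 1)) := by
  rcases lt_trichotomy k 0 with hn | hn | hn
  · obtain ⟨j, rfl⟩ : ∃ j : ℕ, k = -((j : ℤ) + 1) := ⟨(-k - 1).toNat, by omega⟩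
    have h := mag_bes_rec_nat b j
    have e1 : -((j : ℤ) + 1) - 1 = -((j + 2 : ℕ) : ℤ) := by push_cast; ring
    have e2 : -((j : ℤ) + 1) + 1 = -((j : ℕ) : ℤ) := by ring
    have e3 : -((j : ℤ) + 1) = -((j + 1 : ℕ) : ℤ) := by push_cast; ring
    rw [e1, e2, e3, bes_neg, bes_neg, bes_neg]
    push_cast at h ⊢
    linarith [h]
  · subst hn
    have : bes b (0 - 1) = bes b (0 + 1) := by
      rw [show (0 : ℤ) - 1 = -(0 + 1) by ring, bes_neg]
    rw [this]; simp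
  · obtain ⟨j, rfl⟩ : ∃ j : ℕ, k = (j : ℤ) + 1 := ⟨(k - 1).toNat, by omega⟩
    have h := mag_bes_rec_nat b j
    have e1 : (j : ℤ) + 1 - 1 = ((j : ℕ) : ℤ) := by ring
    have e2 : (j : ℤ) + 1 + 1 = ((j + 2 : ℕ) : ℤ) := by push_cast; ring
    have e3 : (j : ℤ) + 1 = ((j + 1 : ℕ) : ℤ) := by push_cast; ring
    rw [e1, e2, e3]
    push_cast at h ⊢
    linarith [h]

/-- algebra from `mag_bes_rec` at `k`, `k - 1`, `k + 1`. -/
theorem mag_bes_rec2 (b : ℝ) (k : ℤ) : (k : ℝ) ^ 2 * bes b k =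
    b / 2 * (bes b (k - 1) + bes b (k + 1)) + b ^ 2 / 4 * (bes b (k - 2) - 2 * bes b k + bes b (k + 2)) := by
  have h0 := mag_bes_rec b k
  have h1 := mag_bes_rec b (k - 1)
  have h2 := mag_bes_rec b (k + 1)
  have e1 : k - 1 - 1 = k - 2 := by ring
  have e2 : k - 1 + 1 = k := by ring
  have e3 : k + 1 - 1 = k := by ring
  have e4 : k + 1 + 1 = k + 2 := by ring
  rw [e1, e2] at h1
  rw [e3, e4] at h2
  push_cast at h1 h2
  have : (k : ℝ) ^ 2 * bes b k = (k : ℝ) * ((k : ℝ) * bes b k) := by ring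
  rw [this, h0]
  have h1' : (k : ℝ) * bes b (k - 1) = b / 2 * (bes b (k - 2) - bes b k) + bes b (k - 1) := by linarith
  have h2' : (k : ℝ) * bes b (k + 1) = b / 2 * (bes b k - bes b (k + 2)) - bes b (k + 1) := by linarith
  calc (k : ℝ) * (b / 2 * (bes b (k - 1) - bes b (k + 1)))
      = b / 2 * ((k : ℝ) * bes b (k - 1) - (k : ℝ) * bes b (k + 1)) := by ring
    _ = _ := by rw [h1', h2']; ring

end

end Claimed.Agent.R285
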