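import Claimed.Agent.R285.Mag.Bes

/-!
# ROW 285, MAG 3: bond moments of a Bessel height law through shifted partition sums (leaves L-MAG-COV-A, L-MAG-COV-B)

Any height graph `G`, pins `P`; only hypothesis `hS : ∀ τ, Summable (h ↦ wt b τ h)` (from `mag_wt_summable`).
Termwise, from the Bessel recurrence: with `n_e = ∇_e h`,
  `n_e wt⁰(h) = (b/2) (wt^{-δ_e}(h) - wt^{δ_e}(h))`,
  `n_e n_f wt⁰(h) = (b²/4) ∑_{σ,σ'=±} σσ' wt^{σδ_e+σ'δ_f}(h)`  (`e ≠ f`),
  `n_e² wt⁰(h) = (b/2)(wt^{-δ_e} + wt^{δ_e}) + (b²/4)(wt^{-2δ_e} - 2 wt⁰ + wt^{2δ_e})`.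
So all these integrands are summable and their expectations are combinations of `G.ratio`.
`MagSm` = integrands for which `Ex` is additive.
-/

set_option autoImplicit false

namespace Claimed.Agent.R285

open MeasureTheory Filter Topology

noncomputable section

variable (G : HGraph) (b : ℝ) (P : Set G.V)

/-- the integrand `F` is summable against the centred weight. -/
def MagSm (F : (G.V → ℝ) → ℝ) : Prop :=
  Summable fun h : G.Conf P => F (fun v => 2 * Real.pi * (h.1 v : ℝ)) * G.wt b 0 h.1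

variable {G b P}

theorem mag_Zs_zero (F : (G.V → ℝ) → ℝ) :
    G.Zs b P 0 0 F = ∑' h : G.Conf P, F (fun v => 2 * Real.pi * (h.1 v : ℝ)) * G.wt b 0 h.1 := by
  unfold HGraph.Zs
  simp only [Pi.zero_apply, neg_zero, zero_div, Real.exp_zero, mul_one]

theorem MagSm.add {F F' : (G.V → ℝ) → ℝ} (h : MagSm G b P F) (h' : MagSm G b P F') : MagSm G b P fun φ => F φ + F' φ := by
  unfold MagSm at *
  simpa [add_mul] using h.add h'

theorem MagSm.const_mul {F : (G.V → ℝ) → ℝ} (h : MagSm G b P F) (c : ℝ) : MagSm G b P fun φ => c * F φ := by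
  unfold MagSm at *
  simpa [mul_assoc] using h.mul_left c

theorem MagSm.sum {ι : Type*} (s : Finset ι) {F : ι → (G.V → ℝ) → ℝ} (h : ∀ i ∈ s, MagSm G b P (F i)) :
    MagSm G b P fun φ => ∑ i ∈ s, F i φ := by
  unfold MagSm at *
  simpa [Finset.sum_mul] using summable_sum h

theorem magEx_add {F F' : (G.V → ℝ) → ℝ} (h : MagSm G b P F) (h' : MagSm G b P F') :
    G.Ex b P (fun φ => F φ + F' φ) = G.Ex b P F + G.Ex b P F' := by
  unfold HGraph.Ex
  rw [mag_Zs_zero, mag_Zs_zero F, mag_Zs_zero F', ← add_div, ← Summable.tsum_add h h']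
  simp only [add_mul]

theorem magEx_const_mul (F : (G.V → ℝ) → ℝ) (c : ℝ) : G.Ex b P (fun φ => c * F φ) = c * G.Ex b P F := by
  unfold HGraph.Ex
  rw [mag_Zs_zero, mag_Zs_zero F, ← mul_div_assoc, ← tsum_mul_left]
  simp only [mul_assoc]

theorem magEx_sum {ι : Type*} (s : Finset ι) {F : ι → (G.V → ℝ) → ℝ} (h : ∀ i ∈ s, MagSm G b P (F i)) :
    G.Ex b P (fun φ => ∑ i ∈ s, F i φ) = ∑ i ∈ s, G.Ex b P (F i) := by
  unfold HGraph.Ex
  rw [mag_Zs_zero, ← Finset.sum_div]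
  congr 1
  simp only [mag_Zs_zero, Finset.sum_mul]
  exact Summable.tsum_finsetSum h

/-- nonnegative integrands have nonnegative expectation (`bes_nonneg`, `tsum_nonneg`). -/
theorem magEx_nonneg (hb : 0 ≤ b) {F : (G.V → ℝ) → ℝ} (hF : ∀ φ, 0 ≤ F φ) : 0 ≤ G.Ex b P F := by
  have hw : ∀ h : G.V → ℤ, 0 ≤ G.wt b 0 h := fun h => Finset.prod_nonneg fun e _ => bes_nonneg b hb _
  unfold HGraph.Ex
  rw [mag_Zs_zero, mag_Zs_zero]
  exact div_nonneg (tsum_nonneg fun h => mul_nonneg (hF _) (hw _)) (tsum_nonneg fun h => mul_nonneg zero_le_one (hw _))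

/-! ### termwise identities -/

open Classical in
theorem mag_wt_split (τ : G.E → ℤ) (h : G.V → ℤ) (e : G.E) (c : ℤ) :
    G.wt b (τ + c • G.dl e) h
      = bes b (G.gz h e + τ e + c) * ∏ f ∈ Finset.univ.erase e, bes b (G.gz h f + τ f) := by
  unfold HGraph.wt
  rw [← Finset.mul_prod_erase Finset.univ _ (Finset.mem_univ e)]
  congr 1
  · simp [HGraph.dl, HGraph.gz, add_assoc]
  · refine Finset.prod_congr rfl fun f hf => ?_
    have hfe : f ≠ e := (Finset.mem_erase.1 hf).1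
    simp [HGraph.dl, HGraph.gz, hfe]

/-- the Bessel recurrence on the bond `e`, any connection. -/
theorem mag_wt_rec (τ : G.E → ℤ) (h : G.V → ℤ) (e : G.E) :
    ((G.gz h e + τ e : ℤ) : ℝ) * G.wt b τ h = b / 2 * (G.wt b (τ - G.dl e) h - G.wt b (τ + G.dl e) h) := by
  have h0 := mag_wt_split (b := b) τ h e 0
  have h1 := mag_wt_split (b := b) τ h e 1
  have h2 := mag_wt_split (b := b) τ h e (-1)
  rw [zero_smul, add_zero, add_zero] at h0
  rw [one_smul] at h1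
  rw [neg_one_smul, ← sub_eq_add_neg, ← sub_eq_add_neg] at h2
  rw [h0, h1, h2, ← mul_assoc, mag_bes_rec]
  ring

theorem mag_dl_self (e : G.E) : G.dl e e = 1 := by simp [HGraph.dl]

theorem mag_dl_ne {e f : G.E} (h : e ≠ f) : G.dl f e = 0 := by simp [HGraph.dl, h]

theorem mag_gr_coe (e : G.E) (h : G.V → ℤ) :
    G.gr e (fun v => 2 * Real.pi * (h v : ℝ)) = 2 * Real.pi * ((G.gz h e : ℤ) : ℝ) := by
  simp only [HGraph.gr, HGraph.gz, Int.cast_sub]
  ring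

theorem mag_term_one (h : G.V → ℤ) (e : G.E) :
    ((G.gz h e : ℤ) : ℝ) * G.wt b 0 h = b / 2 * (G.wt b (-G.dl e) h - G.wt b (G.dl e) h) := by
  have := mag_wt_rec (b := b) 0 h e
  simpa using this

theorem mag_term_ne (h : G.V → ℤ) {e f : G.E} (hef : e ≠ f) :
    ((G.gz h e : ℤ) : ℝ) * ((G.gz h f : ℤ) : ℝ) * G.wt b 0 h
      = b ^ 2 / 4 * (G.wt b (G.dl e + G.dl f) h + G.wt b (-G.dl e - G.dl f) h
          - G.wt b (G.dl e - G.dl f) h - G.wt b (-G.dl e + G.dl f) h) := by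
  have h1 := mag_wt_rec (b := b) (-G.dl f) h e
  have h2 := mag_wt_rec (b := b) (G.dl f) h e
  simp only [Pi.neg_apply, mag_dl_ne hef, neg_zero, add_zero] at h1 h2
  have e1 : -G.dl f - G.dl e = -G.dl e - G.dl f := by abel
  have e2 : -G.dl f + G.dl e = G.dl e - G.dl f := by abel
  have e3 : G.dl f - G.dl e = -G.dl e + G.dl f := by abel
  have e4 : G.dl f + G.dl e = G.dl e + G.dl f := by abel
  rw [e1, e2] at h1
  rw [e3, e4] at h2
  calc ((G.gz h e : ℤ) : ℝ) * ((G.gz h f : ℤ) : ℝ) * G.wt b 0 h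
      = ((G.gz h e : ℤ) : ℝ) * (((G.gz h f : ℤ) : ℝ) * G.wt b 0 h) := by ring
    _ = b / 2 * (((G.gz h e : ℤ) : ℝ) * G.wt b (-G.dl f) h - ((G.gz h e : ℤ) : ℝ) * G.wt b (G.dl f) h) := by
        rw [mag_term_one]; ring
    _ = _ := by rw [h1, h2]; ring

theorem mag_term_sq (h : G.V → ℤ) (e : G.E) :
    ((G.gz h e : ℤ) : ℝ) * ((G.gz h e : ℤ) : ℝ) * G.wt b 0 h
      = b / 2 * (G.wt b (-G.dl e) h + G.wt b (G.dl e) h)
        + b ^ 2 / 4 * (G.wt b (-(2 • G.dl e)) h - 2 * G.wt b 0 h + G.wt b (2 • G.dl e) h) := by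
  have h1 := mag_wt_rec (b := b) (-G.dl e) h e
  have h2 := mag_wt_rec (b := b) (G.dl e) h e
  simp only [Pi.neg_apply, mag_dl_self] at h1 h2
  have e1 : -G.dl e - G.dl e = -(2 • G.dl e) := by rw [two_smul]; abel
  have e2 : -G.dl e + G.dl e = 0 := by abel
  have e3 : G.dl e - G.dl e = 0 := by abel
  have e4 : G.dl e + G.dl e = 2 • G.dl e := by rw [two_smul]
  rw [e1, e2] at h1
  rw [e3, e4] at h2
  push_cast at h1 h2
  have h1' : ((G.gz h e : ℤ) : ℝ) * G.wt b (-G.dl e) h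
      = b / 2 * (G.wt b (-(2 • G.dl e)) h - G.wt b 0 h) + G.wt b (-G.dl e) h := by linarith
  have h2' : ((G.gz h e : ℤ) : ℝ) * G.wt b (G.dl e) h
      = b / 2 * (G.wt b 0 h - G.wt b (2 • G.dl e) h) - G.wt b (G.dl e) h := by linarith
  calc ((G.gz h e : ℤ) : ℝ) * ((G.gz h e : ℤ) : ℝ) * G.wt b 0 h
      = ((G.gz h e : ℤ) : ℝ) * (((G.gz h e : ℤ) : ℝ) * G.wt b 0 h) := by ring
    _ = b / 2 * (((G.gz h e : ℤ) : ℝ) * G.wt b (-G.dl e) h - ((G.gz h e : ℤ) : ℝ) * G.wt b (G.dl e) h) := by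
        rw [mag_term_one]; ring
    _ = _ := by rw [h1', h2']; ring

theorem mag_Zs_one (τ : G.E → ℤ) : G.Zs b P τ 0 (fun _ => 1) = ∑' h : G.Conf P, G.wt b τ h.1 := by
  unfold HGraph.Zs
  simp only [Pi.zero_apply, neg_zero, zero_div, Real.exp_zero, mul_one, one_mul]

section Moments

variable (hS : ∀ τ : G.E → ℤ, Summable fun h : G.Conf P => G.wt b τ h.1)
include hS

theorem mag_hasSum_gr (e : G.E) :
    HasSum (fun h : G.Conf P => G.gr e (fun v => 2 * Real.pi * (h.1 v : ℝ)) * G.wt b 0 h.1)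
      (2 * Real.pi * (b / 2) * (G.Zs b P (-G.dl e) 0 (fun _ => 1) - G.Zs b P (G.dl e) 0 (fun _ => 1))) := by
  rw [mag_Zs_one, mag_Zs_one]
  have := (((hS (-G.dl e)).hasSum.sub (hS (G.dl e)).hasSum).mul_left (2 * Real.pi * (b / 2)))
  refine (congrArg (fun F => HasSum F _) (funext fun h => ?_)).mpr this
  rw [mag_gr_coe, mul_assoc, mag_term_one]
  ring

theorem mag_hasSum_ne {e f : G.E} (hef : e ≠ f) :
    HasSum (fun h : G.Conf P => (G.gr e (fun v => 2 * Real.pi * (h.1 v : ℝ)) * G.gr f (fun v => 2 * Real.pi * (h.1 v : ℝ)))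
        * G.wt b 0 h.1)
      ((2 * Real.pi) ^ 2 * (b ^ 2 / 4) * (G.Zs b P (G.dl e + G.dl f) 0 (fun _ => 1) + G.Zs b P (-G.dl e - G.dl f) 0 (fun _ => 1)
        - G.Zs b P (G.dl e - G.dl f) 0 (fun _ => 1) - G.Zs b P (-G.dl e + G.dl f) 0 (fun _ => 1))) := by
  simp only [mag_Zs_one]
  have := (((((hS (G.dl e + G.dl f)).hasSum.add (hS (-G.dl e - G.dl f)).hasSum).sub (hS (G.dl e - G.dl f)).hasSum).sub
    (hS (-G.dl e + G.dl f)).hasSum).mul_left ((2 * Real.pi) ^ 2 * (b ^ 2 / 4)))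
  refine (congrArg (fun F => HasSum F _) (funext fun h => ?_)).mpr this
  rw [mag_gr_coe, mag_gr_coe]
  have := mag_term_ne (b := b) h.1 hef
  calc _ = (2 * Real.pi) ^ 2 * (((G.gz h.1 e : ℤ) : ℝ) * ((G.gz h.1 f : ℤ) : ℝ) * G.wt b 0 h.1) := by ring
    _ = _ := by rw [this]; ring

theorem mag_hasSum_sq (e : G.E) :
    HasSum (fun h : G.Conf P => (G.gr e (fun v => 2 * Real.pi * (h.1 v : ℝ)) * G.gr e (fun v => 2 * Real.pi * (h.1 v : ℝ)))
        * G.wt b 0 h.1)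
      ((2 * Real.pi) ^ 2 * (b / 2 * (G.Zs b P (-G.dl e) 0 (fun _ => 1) + G.Zs b P (G.dl e) 0 (fun _ => 1))
        + b ^ 2 / 4 * (G.Zs b P (-(2 • G.dl e)) 0 (fun _ => 1) - 2 * G.Zs b P 0 0 (fun _ => 1)
          + G.Zs b P (2 • G.dl e) 0 (fun _ => 1)))) := by
  simp only [mag_Zs_one]
  have := (((((hS (-G.dl e)).hasSum.add (hS (G.dl e)).hasSum).mul_left (b / 2)).add
    ((((hS (-(2 • G.dl e))).hasSum.sub ((hS 0).hasSum.mul_left 2)).add (hS (2 • G.dl e)).hasSum).mul_left (b ^ 2 / 4))).mul_left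
      ((2 * Real.pi) ^ 2))
  refine (congrArg (fun F => HasSum F _) (funext fun h => ?_)).mpr this
  rw [mag_gr_coe]
  have := mag_term_sq (b := b) h.1 e
  calc _ = (2 * Real.pi) ^ 2 * (((G.gz h.1 e : ℤ) : ℝ) * ((G.gz h.1 e : ℤ) : ℝ) * G.wt b 0 h.1) := by ring
    _ = _ := by rw [this]

/-- L-MAG-COV-A (i). -/
theorem magSm_gr (e : G.E) : MagSm G b P (G.gr e) := (mag_hasSum_gr hS e).summable

/-- L-MAG-COV-A (ii). -/
theorem magEx_gr (e : G.E) : G.Ex b P (G.gr e) = 2 * Real.pi * (b / 2) * (G.ratio b P (-G.dl e) - G.ratio b P (G.dl e)) := by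
  unfold HGraph.Ex HGraph.ratio
  rw [mag_Zs_zero, (mag_hasSum_gr hS e).tsum_eq]
  ring

/-- L-MAG-COV-A (iii): both cases `e = f`, `e ≠ f`. -/
theorem magSm_gr_gr (e f : G.E) : MagSm G b P fun φ => G.gr e φ * G.gr f φ := by
  by_cases hef : e = f
  · subst hef
    exact (mag_hasSum_sq hS e).summable
  · exact (mag_hasSum_ne hS hef).summable

/-- L-MAG-COV-B (i). -/
theorem magEx_gr_gr (e f : G.E) (hef : e ≠ f) : G.Ex b P (fun φ => G.gr e φ * G.gr f φ) =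
    (2 * Real.pi) ^ 2 * (b ^ 2 / 4) * (G.ratio b P (G.dl e + G.dl f) + G.ratio b P (-G.dl e - G.dl f)
      - G.ratio b P (G.dl e - G.dl f) - G.ratio b P (-G.dl e + G.dl f)) := by
  unfold HGraph.Ex HGraph.ratio
  rw [mag_Zs_zero, (mag_hasSum_ne hS hef).tsum_eq]
  ring

/-- L-MAG-COV-B (ii).  (`hZ`: the centred partition sum does not vanish, so that `ratio 0 = 1`.) -/
theorem magEx_gr_sq (hZ : G.Zs b P 0 0 (fun _ => 1) ≠ 0) (e : G.E) : G.Ex b P (fun φ => G.gr e φ * G.gr e φ) =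
    (2 * Real.pi) ^ 2 * (b / 2 * (G.ratio b P (-G.dl e) + G.ratio b P (G.dl e))
      + b ^ 2 / 4 * (G.ratio b P (-(2 • G.dl e)) - 2 + G.ratio b P (2 • G.dl e))) := by
  unfold HGraph.Ex HGraph.ratio
  rw [mag_Zs_zero, (mag_hasSum_sq hS e).tsum_eq]
  field_simp

end Moments

end

end Claimed.Agent.R285
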