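import Claimed.Agent.R285.Xy.Mass
import Claimed.Agent.R285.Rsd.Bes

/-!
# ROW 285, MAG 0: definitions for `a(b) > 0 ⇒ m(b) = 0` (owner helper30; replaces [C] Section 4, see `Read/C4.lean`)

* `magDiv d k = ∑_e k_e d_e`: divergence of an integer flow `k` in a character system `d : E → W → ℤ`.
* `MagExact G P d`: the character system `d`, indexed by the BONDS of the height graph `G`, is dual to `(G, P)`: divergence free flows = gradients of heights pinned on `P`, bijectively.
* spins with a ground: `Option W`, `none` = the exterior face, angle `0`; `magDel`, `magSn`, `magCs`, `magTwo`.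
* `magSys = (δ_x - δ_y)_{(x,y)} ⊕ (δ_z)_z`: pair couplings `J` plus a field `h` in the direction `0`.
* the free height square `square m`: faces `sqFaces m = [1,m-1]² ⊂ ℤ²` (face `(i,j)` = unit square with upper right corner `(i,j)`), `sqBond`, `sqD`.

No sorry in this file.
-/

set_option autoImplicit false

namespace Claimed.Agent.R285

open MeasureTheory Filter Topology Claims.C0459

noncomputable section

/-! ## character systems -/

/-- divergence of the integer flow `k`. -/
def magDiv {W E : Type*} [Fintype E] (d : E → W → ℤ) (k : E → ℤ) : W → ℤ := ∑ e, k e • d e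

namespace HGraph

variable (G : HGraph)

/-- gradient of a real height along a bond. -/
def gr (e : G.E) (φ : G.V → ℝ) : ℝ := φ (G.tgt e) - φ (G.src e)

/-- gradient of an integer height. -/
def gz (h : G.V → ℤ) (e : G.E) : ℤ := h (G.tgt e) - h (G.src e)

open Classical in
/-- the unit connection on the bond `e`. -/
def dl (e : G.E) : G.E → ℤ := fun f => if f = e then 1 else 0

end HGraph

/-- `d` is dual to the height graph `G` with pins `P`. -/
def MagExact (G : HGraph) (P : Set G.V) {W : Type*} (d : G.E → W → ℤ) : Prop :=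
  (∀ k : G.E → ℤ, magDiv d k = 0 ↔ ∃ h : G.Conf P, G.gz h.1 = k) ∧
    ∀ h h' : G.Conf P, G.gz h.1 = G.gz h'.1 → h = h'

/-! ## spins with a ground -/

section Ground

variable {W : Type*}

/-- `δ_p`, `δ_none = 0`. -/
def magDel [DecidableEq W] : Option W → W → ℤ
  | none => 0
  | some a => xyDel a

/-- `sin θ_p`, `θ_none = 0`. -/
def magSn : Option W → (W → ℝ) → ℝ
  | none, _ => 0
  | some a, θ => Real.sin (θ a)

/-- `cos θ_p`, `θ_none = 0`. -/
def magCs : Option W → (W → ℝ) → ℝ
  | none, _ => 1
  | some a, θ => Real.cos (θ a)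

/-- the free two point function, `0` if one of the points is the ground. -/
def magTwo [Fintype W] [DecidableEq W] (J : W × W → ℝ) : Option W → Option W → ℝ
  | some a, some c => xyTwo J a c
  | _, _ => 0

/-- pair interactions and a field. -/
def magSys [DecidableEq W] : (W × W) ⊕ W → W → ℤ := Sum.elim xyBond xyDel

end Ground

/-! ## planar duality on `ℤ²` -/

/-- an oriented n.n. bond of `ℤ²`: first endpoint and direction (`true`: east, `false`: north); the same type as `Bond` of `Base/Geom.lean`. -/
abbrev MagBond : Type := (ℤ × ℤ) × Bool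

/-- the dual site on the left of the oriented bond `e` (dual site `(i,j)` = centre of the unit square with upper right corner `(i,j)`). -/
def magP (e : MagBond) : ℤ × ℤ := if e.2 then (e.1.1 + 1, e.1.2 + 1) else (e.1.1, e.1.2 + 1)

/-- the dual site on the right of `e`. -/
def magM (e : MagBond) : ℤ × ℤ := if e.2 then (e.1.1 + 1, e.1.2) else (e.1.1 + 1, e.1.2 + 1)

/-- a site of `ℤ²` as a spin of `Λ`; the sites outside are the ground. -/
def magOpt (Λ : Finset (ℤ × ℤ)) (z : ℤ × ℤ) : Option Λ := if h : z ∈ Λ then some ⟨z, h⟩ else none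

/-- the character of the spin system on `Λ` (grounded outside) attached to the height bond `e`. -/
def magVec (Λ : Finset (ℤ × ℤ)) (e : MagBond) : Λ → ℤ := magDel (magOpt Λ (magP e)) - magDel (magOpt Λ (magM e))

/-! ## the free height square -/

/-- the inner faces of `square m`. -/
def sqFaces (m : ℕ) : Finset (ℤ × ℤ) := Finset.Icc 1 ((m : ℤ) - 1) ×ˢ Finset.Icc 1 ((m : ℤ) - 1)

/-- the bond of `ℤ²` of an edge of `square m`. -/
def sqBond {m : ℕ} (e : (square m).E) : MagBond := (((e.1.1.1.1 : ℤ), (e.1.1.2.1 : ℤ)), e.1.2)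

/-- the dual character system of `square m`. -/
def sqD (m : ℕ) (e : (square m).E) : sqFaces m → ℤ := magVec (sqFaces m) (sqBond e)

/-- the pinned corner. -/
def sqO (m : ℕ) (hm : 0 < m) : (square m).V := (⟨0, hm⟩, ⟨0, hm⟩)

/-- the vertex `(x,y)`. -/
def sqV {m : ℕ} (x y : ℕ) (hx : x < m) (hy : y < m) : (square m).V := (⟨x, hx⟩, ⟨y, hy⟩)

/-- the horizontal edge from `(x,y)` to `(x+1,y)`. -/
def sqH {m : ℕ} (x y : ℕ) (hx : x + 1 < m) (hy : y < m) : (square m).E :=
  ⟨((⟨x, by omega⟩, ⟨y, hy⟩), true), by simpa using hx⟩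

/-- the vertical edge from `(x,y)` to `(x,y+1)`. -/
def sqU {m : ℕ} (x y : ℕ) (hx : x < m) (hy : y + 1 < m) : (square m).E :=
  ⟨((⟨x, hx⟩, ⟨y, by omega⟩), false), by simpa using hy⟩

/-- the bond covariance of the free square (physical heights `2π h`). -/
def sqCov (b : ℝ) (m : ℕ) (hm : 0 < m) (e f : (square m).E) : ℝ :=
  (square m).Ex b {sqO m hm} fun φ => (square m).gr e φ * (square m).gr f φ

end

end Claimed.Agent.R285
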