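import Claimed.Agent.R285.Mag.Defs

/-!
# ROW 285, MAG 2: spin/height duality for an ARBITRARY integer connection (owner helper30; NO sorry in this file)

No planarity here.  For every character system `d : E → W → ℤ` with couplings `J`:
  `∫ cos(m·θ) ∏_e e^{J_e cos(d_e·θ)} dθ = (2π)^{|W|} e^{∑J} ∑_{k ∈ ℤ^E, div k = m} ∏_e p_{J_e}(k_e)`      (`mag_dual_hasSum`).
If `d` is indexed by the bonds of a height graph and `MagExact G P d` (divergence free = gradient), the right side with `m = div τ` is `Z^τ` (`mag_wt_hasSum`), hence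
  `G.ratio b P τ = ⟨cos((div τ)·θ)⟩`   (`mag_ratio_eq`),   for EVERY `τ : G.E → ℤ`.
-/

set_option autoImplicit false
set_option linter.unusedSectionVars false

namespace Claimed.Agent.R285

open MeasureTheory Filter Topology

noncomputable section

/-- the statement of `mag_pi_hasSum` for one index type. -/
def MagPi (α : Type*) [Fintype α] : Prop :=
  ∀ f : α → ℤ → ℂ, (∀ i, Summable fun k => ‖f i k‖) →
    HasSum (fun k : α → ℤ => ∏ i, f i (k i)) (∏ i, ∑' k, f i k) ∧ Summable fun k : α → ℤ => ∏ i, ‖f i (k i)‖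

theorem magPi_equiv {α β : Type*} [Fintype α] [Fintype β] (e : α ≃ β) (ih : MagPi α) : MagPi β := by
  intro f hf
  obtain ⟨h1, h2⟩ := ih (fun a => f (e a)) fun a => hf (e a)
  let E : (β → ℤ) ≃ (α → ℤ) := Equiv.arrowCongr e.symm (Equiv.refl ℤ)
  constructor
  · have h3 := (E.hasSum_iff (f := fun k : α → ℤ => ∏ a, f (e a) (k a))).2 h1
    rw [Equiv.prod_comp e (fun i => ∑' k, f i k)] at h3
    convert h3 using 1
    funext k
    exact (Equiv.prod_comp e (fun i => f i (k i))).symm
  · have h3 := (E.summable_iff (f := fun k : α → ℤ => ∏ a, ‖f (e a) (k a)‖)).2 h2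
    convert h3 using 1
    funext k
    exact (Equiv.prod_comp e (fun i => ‖f i (k i)‖)).symm

theorem magPi_empty : MagPi PEmpty := by
  intro f _
  constructor
  · simp
  · exact (hasSum_unique (fun k : PEmpty → ℤ => ∏ i, ‖f i (k i)‖)).summable

theorem magPi_option {α : Type*} [Fintype α] (ih : MagPi α) : MagPi (Option α) := by
  intro f hf
  obtain ⟨h1, h2⟩ := ih (fun a => f (some a)) fun a => hf (some a)
  let E : (Option α → ℤ) ≃ ℤ × (α → ℤ) := Equiv.piOptionEquivProd
  let F : (α → ℤ) → ℂ := fun k => ∏ a, f (some a) (k a)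
  let N : (α → ℤ) → ℝ := fun k => ∏ a, ‖f (some a) (k a)‖
  have h0 : HasSum (f none) (∑' k, f none k) := (hf none).of_norm.hasSum
  have h1' : HasSum F (∏ a, ∑' k, f (some a) k) := h1
  have h2n : Summable N := h2
  have h2' : Summable fun k : α → ℤ => ‖F k‖ := by
    have : (fun k : α → ℤ => ‖F k‖) = N := by funext k; exact norm_prod _ _
    rw [this]; exact h2
  constructor
  · have hs : Summable fun x : ℤ × (α → ℤ) => f none x.1 * F x.2 :=
      summable_mul_of_summable_norm (f := f none) (g := F) (hf none) h2'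
    have h3 : HasSum (fun x : ℤ × (α → ℤ) => f none x.1 * F x.2) ((∑' k, f none k) * ∏ a, ∑' k, f (some a) k) :=
      HasSum.mul h0 h1' hs
    have h4 := (E.hasSum_iff (f := fun x : ℤ × (α → ℤ) => f none x.1 * F x.2)).2 h3
    rw [Fintype.prod_option]
    convert h4 using 1
    funext k
    rw [Fintype.prod_option]
    rfl
  · have h3 : Summable fun x : ℤ × (α → ℤ) => ‖f none x.1‖ * N x.2 :=
      Summable.mul_of_nonneg (f := fun k => ‖f none k‖) (g := N) (hf none) h2n (fun _ => norm_nonneg _)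
        (fun _ => Finset.prod_nonneg fun _ _ => norm_nonneg _)
    have h4 := (E.summable_iff (f := fun x : ℤ × (α → ℤ) => ‖f none x.1‖ * N x.2)).2 h3
    convert h4 using 1
    funext k
    rw [Fintype.prod_option]
    rfl

theorem magPi_all (ι : Type*) [Fintype ι] : MagPi ι := by
  refine Fintype.induction_empty_option (P := fun α _ => MagPi α) ?_ magPi_empty (fun α _ ih => magPi_option ih) ι
  intro α β _ e ih
  let _ : Fintype α := Fintype.ofEquiv β e.symm
  exact magPi_equiv e ih

/-- product of absolutely convergent series. -/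
theorem mag_pi_hasSum {ι : Type*} [Fintype ι] (f : ι → ℤ → ℂ) (hf : ∀ i, Summable fun k => ‖f i k‖) :
    HasSum (fun k : ι → ℤ => ∏ i, f i (k i)) (∏ i, ∑' k, f i k) ∧ Summable fun k : ι → ℤ => ∏ i, ‖f i (k i)‖ :=
  magPi_all ι f hf

section D1

variable {W : Type*} [Fintype W] {E : Type*} [Fintype E]

theorem xyPh_magDiv (d : E → W → ℤ) (k : E → ℤ) (θ : W → ℝ) : xyPh (magDiv d k) θ = ∑ e, (k e : ℝ) * xyPh (d e) θ := by
  unfold xyPh magDiv
  simp only [Finset.sum_apply, Pi.smul_apply, smul_eq_mul, Int.cast_sum, Int.cast_mul, Finset.sum_mul, Finset.mul_sum]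
  rw [Finset.sum_comm]
  refine Finset.sum_congr rfl fun e _ => Finset.sum_congr rfl fun v _ => by ring

/-- the complex summand. -/
def magF (J φ : E → ℝ) (e : E) (k : ℤ) : ℂ := (bes (J e) k : ℂ) * Complex.exp (k * ((φ e : ℂ) * Complex.I))

theorem magF_norm (J φ : E → ℝ) (e : E) (k : ℤ) : ‖magF J φ e k‖ = |bes (J e) k| := by
  unfold magF
  have e1 : ((k : ℂ) * ((φ e : ℂ) * Complex.I)) = ((φ e * k : ℝ) : ℂ) * Complex.I := by
    push_cast; ring
  rw [norm_mul, e1, Complex.norm_exp_ofReal_mul_I, mul_one, Complex.norm_real, Real.norm_eq_abs]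

theorem magF_summable (J φ : E → ℝ) (e : E) : Summable fun k => ‖magF J φ e k‖ := by
  simp only [magF_norm]
  exact bes_summable_abs _

theorem magF_tsum (J φ : E → ℝ) (e : E) : ∑' k, magF J φ e k = ((Real.exp (J e * (Real.cos (φ e) - 1)) : ℝ) : ℂ) := by
  have h := (bes_hasSum_cexp (J e) ((φ e : ℂ) * Complex.I)).tsum_eq
  unfold magF
  rw [h, Complex.cosh_mul_I]
  push_cast
  rfl

theorem magF_prod (J φ : E → ℝ) (k : E → ℤ) :
    ∏ e, magF J φ e (k e) = ((∏ e, bes (J e) (k e) : ℝ) : ℂ) * Complex.exp (((∑ e, (k e : ℝ) * φ e : ℝ) : ℂ) * Complex.I) := by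
  unfold magF
  rw [Finset.prod_mul_distrib, ← Complex.exp_sum]
  congr 1
  · push_cast; rfl
  · congr 1
    push_cast
    rw [Finset.sum_mul]
    refine Finset.sum_congr rfl fun e _ => by ring

theorem mag_prod_hasSum (J : E → ℝ) (φ : E → ℝ) :
    HasSum (fun k : E → ℤ => (∏ e, bes (J e) (k e)) * Real.cos (∑ e, (k e : ℝ) * φ e))
      (∏ e, Real.exp (J e * (Real.cos (φ e) - 1))) := by
  have h := Complex.hasSum_re (mag_pi_hasSum (magF J φ) (magF_summable J φ)).1
  convert h using 1
  · funext k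
    rw [magF_prod, Complex.re_ofReal_mul, Complex.exp_ofReal_mul_I_re]
  · simp only [magF_tsum]
    rw [← Complex.ofReal_prod, Complex.ofReal_re]

theorem mag_prod_summable (J : E → ℝ) : Summable fun k : E → ℤ => |∏ e, bes (J e) (k e)| := by
  have h := (mag_pi_hasSum (magF J 0) (magF_summable J 0)).2
  simp only [magF_norm] at h
  simpa only [Finset.abs_prod] using h


theorem magDiv_neg (d : E → W → ℤ) (k : E → ℤ) : magDiv d (-k) = - magDiv d k := by
  unfold magDiv
  simp

open Classical in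
theorem mag_int_cos_cos (a m : W → ℤ) :
    ∫ θ, Real.cos (xyPh a θ) * Real.cos (xyPh m θ) ∂xyAng W =
      (2 * Real.pi) ^ Fintype.card W * (((if a = -m then 1 else 0) + (if a = m then 1 else 0)) / 2) := by
  have e : ∀ θ : W → ℝ, Real.cos (xyPh a θ) * Real.cos (xyPh m θ) =
      (1 / 2) * Real.cos (xyPh (a + m) θ) + (1 / 2) * Real.cos (xyPh (a - m) θ) := by
    intro θ
    rw [xyPh_add, xyPh_sub, Real.cos_add, Real.cos_sub]; ring
  simp only [e]
  rw [integral_add ((xyNice_cos _).const_mul _).integrable ((xyNice_cos _).const_mul _).integrable,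
    integral_const_mul, integral_const_mul, xy_int_cos, xy_int_cos]
  have h1 : (a + m = 0) ↔ a = -m := by rw [add_eq_zero_iff_eq_neg]
  have h2 : (a - m = 0) ↔ a = m := sub_eq_zero
  simp only [h1, h2]
  split_ifs <;> ring

/-- the product weight of a flow. -/
def magB (J : E → ℝ) (k : E → ℤ) : ℝ := ∏ e, bes (J e) (k e)

/-- the `k`-th term of the expansion. -/
def magT (d : E → W → ℤ) (J : E → ℝ) (m : W → ℤ) (k : E → ℤ) (θ : W → ℝ) : ℝ :=
  magB J k * (Real.cos (xyPh (magDiv d k) θ) * Real.cos (xyPh m θ))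

theorem magT_integrable (d : E → W → ℤ) (J : E → ℝ) (m : W → ℤ) (k : E → ℤ) : Integrable (magT d J m k) (xyAng W) :=
  (((xyNice_cos (magDiv d k)).mul (xyNice_cos m)).const_mul (magB J k)).integrable

theorem magT_summable (d : E → W → ℤ) (J : E → ℝ) (m : W → ℤ) : Summable fun k => ∫ θ, ‖magT d J m k θ‖ ∂xyAng W := by
  refine Summable.of_nonneg_of_le (fun k => integral_nonneg fun θ => norm_nonneg _) (fun k => ?_)
    ((mag_prod_summable J).mul_right ((2 * Real.pi) ^ Fintype.card W))
  have h1 : ∀ θ : W → ℝ, ‖magT d J m k θ‖ ≤ |magB J k| * 1 := by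
    intro θ
    unfold magT
    rw [Real.norm_eq_abs, abs_mul, abs_mul]
    exact mul_le_mul_of_nonneg_left (mul_le_one₀ (Real.abs_cos_le_one _) (abs_nonneg _) (Real.abs_cos_le_one _)) (abs_nonneg _)
  calc ∫ θ, ‖magT d J m k θ‖ ∂xyAng W ≤ ∫ _θ : W → ℝ, |magB J k| * 1 ∂xyAng W :=
        integral_mono (magT_integrable d J m k).norm (integrable_const _) h1
    _ = |magB J k| * (2 * Real.pi) ^ Fintype.card W := by rw [integral_const_mul, xy_int_one]

theorem magT_tsum (d : E → W → ℤ) (J : E → ℝ) (m : W → ℤ) (θ : W → ℝ) :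
    ∑' k, magT d J m k θ = Real.exp (-∑ e, J e) * (Real.cos (xyPh m θ) * Real.exp (xyEn d J θ)) := by
  have h := (mag_prod_hasSum J fun e => xyPh (d e) θ).mul_right (Real.cos (xyPh m θ))
  have e1 : (fun k : E → ℤ => (∏ e, bes (J e) (k e)) * Real.cos (∑ e, (k e : ℝ) * xyPh (d e) θ) * Real.cos (xyPh m θ))
      = fun k => magT d J m k θ := by
    funext k
    unfold magT magB
    rw [xyPh_magDiv]; ring
  rw [e1] at h
  rw [h.tsum_eq, ← Real.exp_sum]
  have e2 : ∑ e, J e * (Real.cos (xyPh (d e) θ) - 1) = -∑ e, J e + xyEn d J θ := by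
    unfold xyEn
    simp only [mul_sub, mul_one, Finset.sum_sub_distrib]; ring
  rw [e2, Real.exp_add]; ring

open Classical in
/-- the restricted weight. -/
def magR (d : E → W → ℤ) (J : E → ℝ) (m : W → ℤ) (k : E → ℤ) : ℝ := if magDiv d k = m then magB J k else 0

theorem magT_integral (d : E → W → ℤ) (J : E → ℝ) (m : W → ℤ) (k : E → ℤ) :
    ∫ θ, magT d J m k θ ∂xyAng W = (2 * Real.pi) ^ Fintype.card W * ((magR d J m (-k) + magR d J m k) / 2) := by
  classical
  unfold magT
  rw [integral_const_mul, mag_int_cos_cos]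
  have h1 : magDiv d (-k) = m ↔ magDiv d k = -m := by rw [magDiv_neg, neg_eq_iff_eq_neg]
  have h2 : magB J (-k) = magB J k := by
    unfold magB; simp only [Pi.neg_apply, bes_neg]
  unfold magR
  simp only [h1, h2]
  split_ifs <;> ring

theorem magR_summable (d : E → W → ℤ) (J : E → ℝ) (m : W → ℤ) : Summable (magR d J m) := by
  refine Summable.of_norm_bounded (mag_prod_summable J) fun k => ?_
  unfold magR
  split_ifs
  · exact le_of_eq (Real.norm_eq_abs _)
  · rw [norm_zero]; exact abs_nonneg _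

theorem magR_hasSum_neg (d : E → W → ℤ) (J : E → ℝ) (m : W → ℤ) :
    HasSum (fun k => magR d J m (-k)) (∑' k, magR d J m k) := by
  have hT := (magR_summable d J m).hasSum
  have := (Equiv.neg (E → ℤ)).hasSum_iff (f := magR d J m) (a := ∑' k, magR d J m k)
  exact this.2 hT

theorem magR_key (d : E → W → ℤ) (J : E → ℝ) (m : W → ℤ) :
    HasSum (fun k => (2 * Real.pi) ^ Fintype.card W * ((magR d J m (-k) + magR d J m k) / 2))
      (Real.exp (-∑ e, J e) * xyInt d J (fun θ => Real.cos (xyPh m θ))) := by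
  have key := hasSum_integral_of_summable_integral_norm (magT_integrable d J m) (magT_summable d J m)
  have e1 : (fun k => ∫ θ, magT d J m k θ ∂xyAng W) =
      fun k => (2 * Real.pi) ^ Fintype.card W * ((magR d J m (-k) + magR d J m k) / 2) := by
    funext k; exact magT_integral d J m k
  have e2 : ∫ θ, ∑' k, magT d J m k θ ∂xyAng W = Real.exp (-∑ e, J e) * xyInt d J (fun θ => Real.cos (xyPh m θ)) := by
    unfold xyInt
    rw [← integral_const_mul]
    exact integral_congr_ae (Eventually.of_forall fun θ => magT_tsum d J m θ)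
  rw [e1, e2] at key
  exact key

theorem magR_tsum (d : E → W → ℤ) (J : E → ℝ) (m : W → ℤ) :
    ∑' k, magR d J m k = xyInt d J (fun θ => Real.cos (xyPh m θ)) / ((2 * Real.pi) ^ Fintype.card W * Real.exp (∑ e, J e)) := by
  have hT := (magR_summable d J m).hasSum
  have hcomb := (((magR_hasSum_neg d J m).add hT).div_const 2).mul_left ((2 * Real.pi) ^ Fintype.card W)
  have huniq := hcomb.unique (magR_key d J m)
  have hc0 : (0 : ℝ) < (2 * Real.pi) ^ Fintype.card W := by positivity
  rw [Real.exp_neg] at huniq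
  rw [eq_div_iff (by positivity)]
  have he : Real.exp (∑ e, J e) ≠ 0 := (Real.exp_pos _).ne'
  field_simp at huniq
  linarith

open Classical in
/-- **Fourier side of the duality**, any character system. -/
theorem mag_dual_hasSum (d : E → W → ℤ) (J : E → ℝ) (m : W → ℤ) :
    HasSum (fun k : E → ℤ => if magDiv d k = m then ∏ e, bes (J e) (k e) else 0)
      (xyInt d J (fun θ => Real.cos (xyPh m θ)) / ((2 * Real.pi) ^ Fintype.card W * Real.exp (∑ e, J e))) := by
  rw [← magR_tsum]
  exact (magR_summable d J m).hasSum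


end D1

theorem magDiv_add {W E : Type*} [Fintype E] (d : E → W → ℤ) (k k' : E → ℤ) : magDiv d (k + k') = magDiv d k + magDiv d k' := by
  unfold magDiv
  simp [add_smul, Finset.sum_add_distrib]

theorem magDiv_sub {W E : Type*} [Fintype E] (d : E → W → ℤ) (k k' : E → ℤ) : magDiv d (k - k') = magDiv d k - magDiv d k' := by
  unfold magDiv
  simp [sub_smul, Finset.sum_sub_distrib]

section D2

variable {G : HGraph} {P : Set G.V} {W : Type*} [Fintype W] {d : G.E → W → ℤ}

/-- `h ↦ ∇h + τ` is a bijection of `G.Conf P` onto `{k : div k = div τ}`. -/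
theorem mag_wt_hasSum (hex : MagExact G P d) (b : ℝ) (τ : G.E → ℤ) :
    HasSum (fun h : G.Conf P => G.wt b τ h.1)
      (xyInt d (fun _ => b) (fun θ => Real.cos (xyPh (magDiv d τ) θ)) /
        ((2 * Real.pi) ^ Fintype.card W * Real.exp (∑ _e : G.E, b))) := by
  classical
  have key := mag_dual_hasSum d (fun _ => b) (magDiv d τ)
  let g : G.Conf P → (G.E → ℤ) := fun h => G.gz h.1 + τ
  have hg : Function.Injective g := by
    intro h h' hh
    exact hex.2 h h' (add_right_cancel hh)
  have hdiv : ∀ h : G.Conf P, magDiv d (g h) = magDiv d τ := by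
    intro h
    have : magDiv d (G.gz h.1) = 0 := (hex.1 _).2 ⟨h, rfl⟩
    show magDiv d (G.gz h.1 + τ) = _
    rw [magDiv_add, this, zero_add]
  have hout : ∀ k ∉ Set.range g, (if magDiv d k = magDiv d τ then ∏ e, bes b (k e) else 0) = 0 := by
    intro k hk
    rw [if_neg]
    intro hkk
    apply hk
    have : magDiv d (k - τ) = 0 := by rw [magDiv_sub, hkk, sub_self]
    obtain ⟨h, hh⟩ := (hex.1 _).1 this
    exact ⟨h, by show G.gz h.1 + τ = k; rw [hh]; abel⟩
  have := (hg.hasSum_iff hout).2 key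
  convert this using 1
  funext h
  show G.wt b τ h.1 = if magDiv d (g h) = magDiv d τ then ∏ e, bes b (g h e) else 0
  rw [if_pos (hdiv h)]
  rfl


theorem mag_wt_summable (hex : MagExact G P d) (b : ℝ) (τ : G.E → ℤ) : Summable fun h : G.Conf P => G.wt b τ h.1 :=
  (mag_wt_hasSum hex b τ).summable

theorem mag_Zs_eq (hex : MagExact G P d) (b : ℝ) (τ : G.E → ℤ) :
    G.Zs b P τ 0 (fun _ => 1) = xyInt d (fun _ => b) (fun θ => Real.cos (xyPh (magDiv d τ) θ)) /
        ((2 * Real.pi) ^ Fintype.card W * Real.exp (∑ _e : G.E, b)) := by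
  unfold HGraph.Zs
  simp only [Pi.zero_apply, neg_zero, zero_div, Real.exp_zero, mul_one, one_mul]
  exact (mag_wt_hasSum hex b τ).tsum_eq

/-- **duality**: the shifted-to-centred ratio of an arbitrary integer connection is a character expectation. -/
theorem mag_ratio_eq (hex : MagExact G P d) (b : ℝ) (τ : G.E → ℤ) :
    G.ratio b P τ = xyChar d (fun _ => b) (magDiv d τ) := by
  unfold HGraph.ratio
  rw [mag_Zs_eq hex, mag_Zs_eq hex]
  have h0 : magDiv d (0 : G.E → ℤ) = 0 := by simp [magDiv]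
  have hpos : (0 : ℝ) < (2 * Real.pi) ^ Fintype.card W * Real.exp (∑ _e : G.E, b) := by positivity
  rw [h0, div_div_div_cancel_right₀ hpos.ne']
  unfold xyChar xyEx xyPart
  congr 2
  funext θ
  rw [xyPh_zero, Real.cos_zero]

end D2

end

end Claimed.Agent.R285
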