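import Claimed.Agent.R285.Mag.Defs

/-!
# ROW 285, MAG 4: three correlation inequalities for rotators with a field (leaves L-MAG-FLIP, L-MAG-MONO, L-MAG-DN, L-MAG-ROT, L-MAG-SS)

System: spins `θ : W → ℝ`, energy `U_{J,h}(θ) = ∑_{(x,y)} J_{xy} cos(θ_x - θ_y) + ∑_z h_z cos θ_z`, `J, h ≥ 0`  (`xyEn magSys (Sum.elim J h)`).
`c_z = cos θ_z`, `s_z = sin θ_z`; ground `none`: `c = 1`, `s = 0`.

(FLIP) `|⟨s_p s_q c_{p'} c_{q'}⟩| ≤ ⟨s_p s_q⟩`.
   `e^U = e^{U_cc} e^{U_ss}`, `U_cc = ∑ J c c + ∑ h c`, `U_ss = ∑ J s s`.  `xy_exp_pos` with `c_e = s_x s_y`, `a_e = J_e`, `g = s_p s_q (1 ∓ c_{p'} c_{q'}) e^{U_cc}`.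
   Monomial integrals: `∫ (∏_{z ∈ L} s_z) G`, `G = (1 ∓ c c) e^{U_cc} ≥ 0` even in every angle (`mag_even_nonneg`): if all multiplicities in `L` are even the integrand is `≥ 0`; otherwise reflect an angle of odd multiplicity (`xy_reflect`): the integral is `0`.
(DN)  (Dunlop-Newman) `⟨s_a s_c⟩_{J,h} ≤ ⟨s_a s_c⟩_{J,0}`.
   `N = ∫∫ [s_a s_c(θ') - s_a s_c(θ)] e^{U_{J,0}(θ') + U_{J,h}(θ)} = Z_{J,h} ∫ s s e^{U_{J,0}} - Z_{J,0} ∫ s s e^{U_{J,h}}` (Fubini).  `xy_dup` with `θ' = x + y`, `θ = x - y`: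
   `s_a s_c(x+y) - s_a s_c(x-y) = 2 [S_a C_c · C'_a S'_c + C_a S_c · S'_a C'_c]`  (`S = sin x`, `C = cos x`, `S' = sin y`, `C' = cos y`),
   `U_{J,0}(x+y) + U_{J,h}(x-y) = ∑ 2 J cos(x_u - x_v) cos(y_u - y_v) + ∑ h_z (C_z C'_z + S_z S'_z)`:  ALL COEFFICIENTS ARE POSITIVE.
   `xy_exp_pos` on the product space: every monomial integral is `2 (∫ F S_a C_c)(∫ F C_a S_c) · 2`, `F` = a product of `cos(x_u - x_v)`, `C_z`, `S_z`; each factor is `≥ 0` by (MONO).
(MONO) `∫ ∏ cos(θ_u - θ_v) ∏ c_z ∏ s_z ≥ 0`: expand `cos(θ_u - θ_v) = c c + s s` (induction on the list), then `∫ ∏_z c_z^{α_z} s_z^{β_z} = ∏_z ∫_0^{2π} cos^α sin^β ≥ 0`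
   (`integral_fintype_prod_eq_prod`; `integral_sin_pow_mul_cos_pow_odd`, `integral_sin_pow_odd_mul_cos_pow` give `0` over a period, even/even is pointwise `≥ 0`).
(ROT) `⟨s_a s_c⟩_{J,0} = ½ ⟨cos(θ_a - θ_c)⟩_J`: `⟨cos(θ_a + θ_c)⟩_{J,0} = 0` (`xyChar_eq_zero_of_cnt`, neutrality as in `xyCntB_eq_zero_of_sum`; zero couplings are skipped by the hypothesis `0 < J e` there).
(SS)  `sin A sin B = ∑ ± s_p s_q c_{p'} c_{q'}` for `A = θ_x - θ_y`, `B = θ_u - θ_v`, and `cos(A+B) - cos(A-B) = -2 sin A sin B`.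
-/

set_option autoImplicit false
set_option linter.unusedSectionVars false

namespace Claimed.Agent.R285

open MeasureTheory Filter Topology

noncomputable section

variable {W : Type*} [Fintype W] [DecidableEq W]

/-- even in every angle. -/
def MagEven (F : (W → ℝ) → ℝ) : Prop := ∀ θ v, F (Function.update θ v (-θ v)) = F θ

/-! ### lists of sites as multiplicities -/

theorem mag_list_prod (f : W → ℝ) (l : List W) : (l.map f).prod = ∏ m : W, f m ^ l.count m := by
  rw [Finset.prod_list_map_count]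
  refine Finset.prod_subset (Finset.subset_univ _) fun x _ hx => ?_
  rw [List.count_eq_zero_of_not_mem (by simpa using hx), pow_zero]

theorem mag_list_abs_le (f : W → ℝ) (hf : ∀ z, |f z| ≤ 1) (l : List W) : |(l.map f).prod| ≤ 1 := by
  induction l with
  | nil => simp
  | cons a l ih =>
    rw [List.map_cons, List.prod_cons, abs_mul]
    exact mul_le_one₀ (hf a) (abs_nonneg _) ih

theorem magNice_sinL (L : List W) : XyNice fun θ : W → ℝ => (L.map fun z => Real.sin (θ z)).prod := by
  refine ⟨?_, 1, fun θ => mag_list_abs_le (fun z => Real.sin (θ z)) (fun z => Real.abs_sin_le_one _) L⟩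
  have : (fun θ : W → ℝ => (L.map fun z => Real.sin (θ z)).prod) = fun θ => ∏ m : W, Real.sin (θ m) ^ L.count m := by
    funext θ; exact mag_list_prod (fun z => Real.sin (θ z)) L
  rw [this]
  fun_prop

theorem magNice_cosL (L : List W) : XyNice fun θ : W → ℝ => (L.map fun z => Real.cos (θ z)).prod := by
  refine ⟨?_, 1, fun θ => mag_list_abs_le (fun z => Real.cos (θ z)) (fun z => Real.abs_cos_le_one _) L⟩
  have : (fun θ : W → ℝ => (L.map fun z => Real.cos (θ z)).prod) = fun θ => ∏ m : W, Real.cos (θ m) ^ L.count m := by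
    funext θ; exact mag_list_prod (fun z => Real.cos (θ z)) L
  rw [this]
  fun_prop

theorem mag_sin_refl (θ : W → ℝ) (v : W) (L : List W) :
    (L.map fun z => Real.sin (Function.update θ v (-θ v) z)).prod
      = (-1) ^ L.count v * (L.map fun z => Real.sin (θ z)).prod := by
  induction L with
  | nil => simp
  | cons a L ih =>
    rw [List.map_cons, List.prod_cons, ih, List.map_cons, List.prod_cons, List.count_cons]
    by_cases h : a = v
    · subst h
      simp [pow_succ]
      ring
    · simp [h]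
      ring

theorem mag_sin_per (θ : W → ℝ) (v : W) (L : List W) :
    (L.map fun z => Real.sin (Function.update θ v (θ v + 2 * Real.pi) z)).prod
      = (L.map fun z => Real.sin (θ z)).prod := by
  congr 1
  refine List.map_congr_left fun z _ => ?_
  by_cases h : z = v
  · subst h
    simp
  · simp [h]

/-- L-MAG-FLIP (i): a monomial in the sines against a nonnegative even weight. -/
theorem mag_even_nonneg (F : (W → ℝ) → ℝ) (hF : Continuous F) (hp : XyPer F) (he : MagEven F) (h0 : ∀ θ, 0 ≤ F θ) (L : List W) :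
    0 ≤ ∫ θ, (L.map fun z => Real.sin (θ z)).prod * F θ ∂xyAng W := by
  by_cases hev : ∀ v, Even (L.count v)
  · refine integral_nonneg fun θ => mul_nonneg ?_ (h0 θ)
    rw [mag_list_prod]
    exact Finset.prod_nonneg fun z _ => (hev z).pow_nonneg _
  · push Not at hev
    obtain ⟨v, hv⟩ := hev
    have hodd : Odd (L.count v) := Nat.not_even_iff_odd.1 hv
    have h1 := xy_reflect (fun θ => (L.map fun z => Real.sin (θ z)).prod * F θ) ((magNice_sinL L).1.mul hF)
      (fun θ w => by
        show (L.map fun z => Real.sin (Function.update θ w (θ w + 2 * Real.pi) z)).prod * F _ = _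
        rw [mag_sin_per, hp θ w]) v
    simp only [mag_sin_refl, he _ v, hodd.neg_one_pow] at h1
    have h2 : ∫ θ, -1 * (L.map fun z => Real.sin (θ z)).prod * F θ ∂xyAng W
        = - ∫ θ, (L.map fun z => Real.sin (θ z)).prod * F θ ∂xyAng W := by
      rw [← integral_neg]
      congr 1; funext θ; ring
    rw [h2] at h1
    linarith

/-! ### (MONO) -/

theorem mag_int_one (α β : ℕ) :
    0 ≤ ∫ t in Set.Ico (0 : ℝ) (2 * Real.pi), Real.sin t ^ β * Real.cos t ^ α := by
  have hpi : (0 : ℝ) ≤ 2 * Real.pi := by positivity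
  rcases Nat.even_or_odd' α with ⟨k, hk | hk⟩
  · rcases Nat.even_or_odd' β with ⟨j, hj | hj⟩
    · refine integral_nonneg fun t => ?_
      rw [hk, hj, pow_mul, pow_mul]
      positivity
    · rw [restrict_Ico_eq_restrict_Ioc, ← intervalIntegral.integral_of_le hpi, hj, integral_sin_pow_odd_mul_cos_pow]
      simp
  · rw [restrict_Ico_eq_restrict_Ioc, ← intervalIntegral.integral_of_le hpi, hk, integral_sin_pow_mul_cos_pow_odd]
    simp

theorem mag_int_cs (Lc Ls : List W) :
    0 ≤ ∫ θ, (Lc.map fun z => Real.cos (θ z)).prod * (Ls.map fun z => Real.sin (θ z)).prod ∂xyAng W := by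
  have h : ∀ θ : W → ℝ, (Lc.map fun z => Real.cos (θ z)).prod * (Ls.map fun z => Real.sin (θ z)).prod
      = ∏ z, (fun (z : W) (t : ℝ) => Real.sin t ^ Ls.count z * Real.cos t ^ Lc.count z) z (θ z) := by
    intro θ
    rw [mag_list_prod, mag_list_prod, ← Finset.prod_mul_distrib]
    exact Finset.prod_congr rfl fun z _ => mul_comm _ _
  rw [integral_congr_ae (Filter.Eventually.of_forall h)]
  unfold xyAng
  rw [integral_fintype_prod_eq_prod (fun (z : W) (t : ℝ) => Real.sin t ^ Ls.count z * Real.cos t ^ Lc.count z)]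
  exact Finset.prod_nonneg fun z _ => mag_int_one _ _

theorem magNice_cosP (l : List (W × W)) : XyNice fun θ : W → ℝ => (l.map fun p => Real.cos (θ p.1 - θ p.2)).prod := by
  induction l with
  | nil => simpa using xyNice_one
  | cons a l ih =>
    simp only [List.map_cons, List.prod_cons]
    refine XyNice.mul ⟨by fun_prop, 1, fun θ => Real.abs_cos_le_one _⟩ ih

/-- L-MAG-MONO. -/
theorem mag_mono_nonneg (l : List (W × W)) (Lc Ls : List W) :
    0 ≤ ∫ θ, (l.map fun p => Real.cos (θ p.1 - θ p.2)).prod * ((Lc.map fun z => Real.cos (θ z)).prod * (Ls.map fun z => Real.sin (θ z)).prod)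
      ∂xyAng W := by
  induction l generalizing Lc Ls with
  | nil => simpa using mag_int_cs Lc Ls
  | cons p l ih =>
    have h : ∀ θ : W → ℝ, ((p :: l).map fun p => Real.cos (θ p.1 - θ p.2)).prod *
        ((Lc.map fun z => Real.cos (θ z)).prod * (Ls.map fun z => Real.sin (θ z)).prod)
        = (l.map fun p => Real.cos (θ p.1 - θ p.2)).prod *
            (((p.1 :: p.2 :: Lc).map fun z => Real.cos (θ z)).prod * (Ls.map fun z => Real.sin (θ z)).prod)
          + (l.map fun p => Real.cos (θ p.1 - θ p.2)).prod *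
            ((Lc.map fun z => Real.cos (θ z)).prod * ((p.1 :: p.2 :: Ls).map fun z => Real.sin (θ z)).prod) := by
      intro θ
      simp only [List.map_cons, List.prod_cons, Real.cos_sub]
      ring
    simp only [h]
    rw [integral_add ((magNice_cosP l).mul ((magNice_cosL _).mul (magNice_sinL _))).integrable
      ((magNice_cosP l).mul ((magNice_cosL _).mul (magNice_sinL _))).integrable]
    exact add_nonneg (ih _ _) (ih _ _)

/-! ### (FLIP) -/

/-- a function of the cosines. -/
theorem mag_cos_fun_nonneg (Φ : (W → ℝ) → ℝ) (hΦ : Continuous Φ) (h0 : ∀ θ : W → ℝ, 0 ≤ Φ fun z => Real.cos (θ z)) (L : List W) :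
    0 ≤ ∫ θ, (L.map fun z => Real.sin (θ z)).prod * Φ (fun z => Real.cos (θ z)) ∂xyAng W := by
  refine mag_even_nonneg (fun θ => Φ fun z => Real.cos (θ z)) (by fun_prop) (fun θ v => ?_) (fun θ v => ?_) h0 L
  · show Φ _ = Φ _
    congr 1
    funext z
    by_cases h : z = v
    · subst h; simp
    · simp [h]
  · show Φ _ = Φ _
    congr 1
    funext z
    by_cases h : z = v
    · subst h; simp
    · simp [h]

theorem magNice_cos_fun (Φ : (W → ℝ) → ℝ) (hΦ : Continuous Φ) : XyNice fun θ : W → ℝ => Φ fun z => Real.cos (θ z) := by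
  refine ⟨by fun_prop, ?_⟩
  obtain ⟨C, hC⟩ := (isCompact_univ_pi (fun _ : W => isCompact_Icc (a := (-1 : ℝ)) (b := 1))).exists_bound_of_continuousOn
    hΦ.continuousOn
  exact ⟨C, fun θ => by simpa using hC _ (fun z _ => ⟨Real.neg_one_le_cos _, Real.cos_le_one _⟩)⟩

/-- `magCs` as a function of the cosines. -/
def magCf : Option W → (W → ℝ) → ℝ
  | none, _ => 1
  | some a, c => c a

theorem magCf_continuous (p : Option W) : Continuous (magCf p) := by
  rcases p with _ | a
  · exact continuous_const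
  · exact continuous_apply a

theorem magCs_eq (p : Option W) (θ : W → ℝ) : magCs p θ = magCf p fun z => Real.cos (θ z) := by
  rcases p with _ | a <;> rfl

theorem magCs_abs_le (p : Option W) (θ : W → ℝ) : |magCs p θ| ≤ 1 := by
  rcases p with _ | a
  · simp [magCs]
  · exact Real.abs_cos_le_one _

theorem magSn_abs_le (p : Option W) (θ : W → ℝ) : |magSn p θ| ≤ 1 := by
  rcases p with _ | a
  · simp [magSn]
  · exact Real.abs_sin_le_one _

theorem magNice_cs (p : Option W) : XyNice (magCs p) := by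
  refine ⟨?_, 1, magCs_abs_le p⟩
  rcases p with _ | a
  · exact continuous_const
  · exact Real.continuous_cos.comp (continuous_apply a)

theorem magNice_sn (p : Option W) : XyNice (magSn p) := by
  refine ⟨?_, 1, magSn_abs_le p⟩
  rcases p with _ | a
  · exact continuous_const
  · exact Real.continuous_sin.comp (continuous_apply a)

variable (J : W × W → ℝ) (hJ : ∀ p, 0 ≤ J p) (h : W → ℝ) (hh : ∀ z, 0 ≤ h z)

theorem magSys_en (θ : W → ℝ) : xyEn magSys (Sum.elim J h) θ =
    ∑ p : W × W, J p * Real.cos (θ p.1 - θ p.2) + ∑ z, h z * Real.cos (θ z) := by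
  unfold xyEn magSys
  rw [Fintype.sum_sum_type]
  congr 1
  · refine Finset.sum_congr rfl fun p _ => ?_
    simp only [Sum.elim_inl, xyBond, xyPh_sub]
    simp [xyPh, xyDel, Pi.single_apply]
  · refine Finset.sum_congr rfl fun z _ => ?_
    simp [xyPh, xyDel, Pi.single_apply]

/-- the part of the energy which is a function of the cosines. -/
def magUcc (c : W → ℝ) : ℝ := ∑ p : W × W, J p * (c p.1 * c p.2) + ∑ z, h z * c z

theorem magSys_en_split (θ : W → ℝ) : xyEn magSys (Sum.elim J h) θ =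
    ∑ p : W × W, J p * (Real.sin (θ p.1) * Real.sin (θ p.2)) + magUcc J h fun z => Real.cos (θ z) := by
  rw [magSys_en, magUcc, ← add_assoc, ← Finset.sum_add_distrib]
  congr 1
  refine Finset.sum_congr rfl fun p _ => ?_
  rw [Real.cos_sub]
  ring

include hJ in
theorem mag_flip_int (σ : ℝ) (hσ : |σ| ≤ 1) (p q p' q' : Option W) :
    0 ≤ xyInt magSys (Sum.elim J h) fun θ => magSn p θ * magSn q θ * (1 + σ * (magCs p' θ * magCs q' θ)) := by
  rcases p with _ | a
  · simp [magSn, xyInt]
  rcases q with _ | c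
  · simp [magSn, xyInt]
  obtain ⟨Φ, hΦ⟩ : ∃ Φ : (W → ℝ) → ℝ, Φ = fun c => (1 + σ * (magCf p' c * magCf q' c)) * Real.exp (magUcc J h c) := ⟨_, rfl⟩
  have hΦc : Continuous Φ := by
    rw [hΦ]
    have h1 := magCf_continuous p'
    have h2 := magCf_continuous q'
    unfold magUcc
    fun_prop
  have hΦ0 : ∀ θ : W → ℝ, 0 ≤ Φ fun z => Real.cos (θ z) := by
    intro θ
    rw [hΦ]
    refine mul_nonneg ?_ (Real.exp_pos _).le
    simp only [← magCs_eq]
    have h1 : |σ * (magCs p' θ * magCs q' θ)| ≤ 1 := by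
      rw [abs_mul, abs_mul]
      exact mul_le_one₀ hσ (by positivity) (mul_le_one₀ (magCs_abs_le _ _) (abs_nonneg _) (magCs_abs_le _ _))
    linarith [(abs_le.1 h1).1]
  have hΦn : XyNice fun θ : W → ℝ => Φ fun z => Real.cos (θ z) := magNice_cos_fun Φ hΦc
  have key := xy_exp_pos (xyAng W) (fun (e : W × W) θ => Real.sin (θ e.1) * Real.sin (θ e.2))
    (fun e => by fun_prop)
    (fun e θ => by
      rw [abs_mul]
      exact mul_le_one₀ (Real.abs_sin_le_one _) (abs_nonneg _) (Real.abs_sin_le_one _)) J hJ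
    (fun θ => Real.sin (θ a) * Real.sin (θ c) * Φ fun z => Real.cos (θ z))
    (((magNice_sn (some a)).mul (magNice_sn (some c))).mul hΦn).integrable
    (fun l _ => by
      have := mag_cos_fun_nonneg Φ hΦc hΦ0 (a :: c :: (l.map Prod.fst ++ l.map Prod.snd))
      refine le_of_le_of_eq this ?_
      congr 1
      funext θ
      simp only [List.map_cons, List.prod_cons, List.map_append, List.prod_append, List.map_map, List.prod_map_mul,
        Function.comp_def]
      ring)
  refine le_of_le_of_eq key ?_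
  unfold xyInt
  congr 1
  funext θ
  rw [magSys_en_split, Real.exp_add, hΦ]
  simp only [magSn, ← magCs_eq]
  ring

include hJ hh in
/-- L-MAG-FLIP (ii). -/
theorem mag_flip (p q p' q' : Option W) :
    |xyEx magSys (Sum.elim J h) fun θ => magSn p θ * magSn q θ * (magCs p' θ * magCs q' θ)| ≤
      xyEx magSys (Sum.elim J h) fun θ => magSn p θ * magSn q θ := by
  have hZ := xyPart_pos (magSys (W := W)) (Sum.elim J h)
  have nss : XyNice fun θ : W → ℝ => magSn p θ * magSn q θ := (magNice_sn p).mul (magNice_sn q)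
  have ncc : XyNice fun θ : W → ℝ => magSn p θ * magSn q θ * (magCs p' θ * magCs q' θ) :=
    nss.mul ((magNice_cs p').mul (magNice_cs q'))
  have key : ∀ σ : ℝ, |σ| ≤ 1 → 0 ≤ xyInt magSys (Sum.elim J h) (fun θ => magSn p θ * magSn q θ)
      + σ * xyInt magSys (Sum.elim J h) (fun θ => magSn p θ * magSn q θ * (magCs p' θ * magCs q' θ)) := by
    intro σ hσ
    have := mag_flip_int J hJ h σ hσ p q p' q'
    rw [← xyInt_const_mul, ← xyInt_add _ _ nss (ncc.const_mul σ)]
    refine le_of_le_of_eq this ?_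
    congr 1
    funext θ
    ring
  have h1 := key 1 (by simp)
  have h2 := key (-1) (by simp)
  unfold xyEx
  rw [abs_div, abs_of_pos hZ]
  refine div_le_div_of_nonneg_right ?_ hZ.le
  rw [abs_le]
  constructor <;> linarith

/-! ### (DN) -/

/-- the one-copy factor of the duplicated monomials. -/
def magMf : (W × W) ⊕ (W ⊕ W) → (W → ℝ) → ℝ
  | Sum.inl p, x => Real.cos (x p.1 - x p.2)
  | Sum.inr (Sum.inl z), x => Real.cos (x z)
  | Sum.inr (Sum.inr z), x => Real.sin (x z)

theorem magMf_inl (p : W × W) (x : W → ℝ) : magMf (Sum.inl p) x = Real.cos (x p.1 - x p.2) := rfl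

theorem magMf_inrl (z : W) (x : W → ℝ) : magMf (Sum.inr (Sum.inl z)) x = Real.cos (x z) := rfl

theorem magMf_inrr (z : W) (x : W → ℝ) : magMf (Sum.inr (Sum.inr z)) x = Real.sin (x z) := rfl

theorem magMf_continuous (e : (W × W) ⊕ (W ⊕ W)) : Continuous (magMf e) := by
  rcases e with p | z | z
  · show Continuous fun x : W → ℝ => Real.cos (x p.1 - x p.2)
    fun_prop
  · show Continuous fun x : W → ℝ => Real.cos (x z)
    fun_prop
  · show Continuous fun x : W → ℝ => Real.sin (x z)
    fun_prop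

theorem magMf_abs_le (e : (W × W) ⊕ (W ⊕ W)) (x : W → ℝ) : |magMf e x| ≤ 1 := by
  rcases e with p | z | z
  · exact Real.abs_cos_le_one _
  · exact Real.abs_cos_le_one _
  · exact Real.abs_sin_le_one _

theorem magMf_form (l : List ((W × W) ⊕ (W ⊕ W))) : ∃ (l1 : List (W × W)) (Lc Ls : List W), ∀ x : W → ℝ,
    (l.map fun e => magMf e x).prod = (l1.map fun p => Real.cos (x p.1 - x p.2)).prod *
      ((Lc.map fun z => Real.cos (x z)).prod * (Ls.map fun z => Real.sin (x z)).prod) := by
  induction l with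
  | nil => exact ⟨[], [], [], fun x => by simp⟩
  | cons e l ih =>
    obtain ⟨l1, Lc, Ls, hl⟩ := ih
    rcases e with p | z | z
    · refine ⟨p :: l1, Lc, Ls, fun x => ?_⟩
      simp only [List.map_cons, List.prod_cons, hl, magMf_inl]
      ring
    · refine ⟨l1, z :: Lc, Ls, fun x => ?_⟩
      simp only [List.map_cons, List.prod_cons, hl, magMf_inrl]
      ring
    · refine ⟨l1, Lc, z :: Ls, fun x => ?_⟩
      simp only [List.map_cons, List.prod_cons, hl, magMf_inrr]
      ring

theorem magMf_nice (l : List ((W × W) ⊕ (W ⊕ W))) : XyNice fun x : W → ℝ => (l.map fun e => magMf e x).prod := by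
  induction l with
  | nil => simpa using xyNice_one
  | cons e l ih =>
    simp only [List.map_cons, List.prod_cons]
    exact XyNice.mul ⟨magMf_continuous e, 1, magMf_abs_le e⟩ ih

theorem magMf_int_nonneg (l : List ((W × W) ⊕ (W ⊕ W))) (a c : W) :
    0 ≤ ∫ x, (l.map fun e => magMf e x).prod * (Real.sin (x a) * Real.cos (x c)) ∂xyAng W := by
  obtain ⟨l1, Lc, Ls, hl⟩ := magMf_form l
  refine le_of_le_of_eq (mag_mono_nonneg l1 (c :: Lc) (a :: Ls)) ?_
  congr 1
  funext x
  rw [hl]
  simp only [List.map_cons, List.prod_cons]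
  ring

/-- the couplings of the duplicated system. -/
def magDa : (W × W) ⊕ (W ⊕ W) → ℝ := Sum.elim (fun p => 2 * J p) (Sum.elim h h)

theorem mag_dn_en (x y : W → ℝ) :
    xyEn magSys (Sum.elim J 0) (x + y) + xyEn magSys (Sum.elim J h) (x - y)
      = ∑ e, magDa J h e * (magMf e x * magMf e y) := by
  rw [magSys_en, magSys_en, Fintype.sum_sum_type, Fintype.sum_sum_type]
  simp only [magDa, Sum.elim_inl, Sum.elim_inr, magMf_inl, magMf_inrl, magMf_inrr, Pi.zero_apply, zero_mul, Finset.sum_const_zero, add_zero,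
    Pi.add_apply, Pi.sub_apply]
  rw [← add_assoc, ← Finset.sum_add_distrib, ← Finset.sum_add_distrib]
  congr 1
  · refine Finset.sum_congr rfl fun p _ => ?_
    have e1 : x p.1 + y p.1 - (x p.2 + y p.2) = (x p.1 - x p.2) + (y p.1 - y p.2) := by ring
    have e2 : x p.1 - y p.1 - (x p.2 - y p.2) = (x p.1 - x p.2) - (y p.1 - y p.2) := by ring
    rw [e1, e2, Real.cos_add, Real.cos_sub (x p.1 - x p.2) (y p.1 - y p.2)]
    ring
  · refine Finset.sum_congr rfl fun z _ => ?_
    rw [Real.cos_sub]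
    ring

include hJ hh in
theorem mag_dn_dup_nonneg (a c : W) :
    0 ≤ ∫ p : (W → ℝ) × (W → ℝ), Real.exp (∑ e, magDa J h e * (magMf e p.1 * magMf e p.2)) *
      (2 * ((Real.sin (p.1 a) * Real.cos (p.1 c)) * (Real.sin (p.2 c) * Real.cos (p.2 a))
        + (Real.sin (p.1 c) * Real.cos (p.1 a)) * (Real.sin (p.2 a) * Real.cos (p.2 c))))
      ∂((xyAng W).prod (xyAng W)) := by
  have nsc : ∀ u v : W, XyNice fun x : W → ℝ => Real.sin (x u) * Real.cos (x v) := fun u v =>
    (magNice_sn (some u)).mul (magNice_cs (some v))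
  refine xy_exp_pos ((xyAng W).prod (xyAng W)) (fun e p => magMf e p.1 * magMf e p.2) ?_ ?_ (magDa J h) ?_
    (fun p => 2 * ((Real.sin (p.1 a) * Real.cos (p.1 c)) * (Real.sin (p.2 c) * Real.cos (p.2 a))
        + (Real.sin (p.1 c) * Real.cos (p.1 a)) * (Real.sin (p.2 a) * Real.cos (p.2 c)))) ?_ ?_
  · intro e
    exact (((magMf_continuous e).comp continuous_fst).mul ((magMf_continuous e).comp continuous_snd)).measurable
  · intro e p
    rw [abs_mul]
    exact mul_le_one₀ (magMf_abs_le _ _) (abs_nonneg _) (magMf_abs_le _ _)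
  · intro e
    rcases e with p | z | z
    · have := hJ p
      simp only [magDa, Sum.elim_inl]
      positivity
    · exact hh z
    · exact hh z
  · exact (((nsc a c).integrable.mul_prod (nsc c a).integrable).add
      ((nsc c a).integrable.mul_prod (nsc a c).integrable)).const_mul 2
  · intro l _
    have h1 : ∀ p : (W → ℝ) × (W → ℝ),
        (l.map fun e => magMf e p.1 * magMf e p.2).prod *
        (2 * ((Real.sin (p.1 a) * Real.cos (p.1 c)) * (Real.sin (p.2 c) * Real.cos (p.2 a))
        + (Real.sin (p.1 c) * Real.cos (p.1 a)) * (Real.sin (p.2 a) * Real.cos (p.2 c))))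
        = 2 * ((((l.map fun e => magMf e p.1).prod * (Real.sin (p.1 a) * Real.cos (p.1 c))) *
            ((l.map fun e => magMf e p.2).prod * (Real.sin (p.2 c) * Real.cos (p.2 a))))
          + (((l.map fun e => magMf e p.1).prod * (Real.sin (p.1 c) * Real.cos (p.1 a))) *
            ((l.map fun e => magMf e p.2).prod * (Real.sin (p.2 a) * Real.cos (p.2 c))))) := by
      intro p
      rw [List.prod_map_mul]
      ring
    simp only [h1]
    have i1 := ((magMf_nice l).mul (nsc a c)).integrable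
    have i2 := ((magMf_nice l).mul (nsc c a)).integrable
    rw [integral_const_mul, integral_add (i1.mul_prod i2) (i2.mul_prod i1),
      integral_prod_mul (fun x => (l.map fun e => magMf e x).prod * (Real.sin (x a) * Real.cos (x c)))
        (fun x => (l.map fun e => magMf e x).prod * (Real.sin (x c) * Real.cos (x a))),
      integral_prod_mul (fun x => (l.map fun e => magMf e x).prod * (Real.sin (x c) * Real.cos (x a)))
        (fun x => (l.map fun e => magMf e x).prod * (Real.sin (x a) * Real.cos (x c)))]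
    have := magMf_int_nonneg l a c
    have := magMf_int_nonneg l c a
    positivity

include hJ hh in
theorem mag_dn_int (a c : W) :
    xyInt magSys (Sum.elim J h) (fun θ => Real.sin (θ a) * Real.sin (θ c)) * xyPart magSys (Sum.elim J 0)
      ≤ xyInt magSys (Sum.elim J 0) (fun θ => Real.sin (θ a) * Real.sin (θ c)) * xyPart magSys (Sum.elim J h) := by
  obtain ⟨w0, hw0⟩ : ∃ w : (W → ℝ) → ℝ, w = fun θ => Real.exp (xyEn magSys (Sum.elim J 0) θ) := ⟨_, rfl⟩
  obtain ⟨wh, hwh⟩ : ∃ w : (W → ℝ) → ℝ, w = fun θ => Real.exp (xyEn magSys (Sum.elim J h) θ) := ⟨_, rfl⟩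
  obtain ⟨f, hf⟩ : ∃ f : (W → ℝ) → ℝ, f = fun θ => Real.sin (θ a) * Real.sin (θ c) := ⟨_, rfl⟩
  have n0 : XyNice w0 := by rw [hw0]; exact xyNice_exp _ _
  have nh : XyNice wh := by rw [hwh]; exact xyNice_exp _ _
  have nf : XyNice f := by rw [hf]; exact (magNice_sn (some a)).mul (magNice_sn (some c))
  have p0 : XyPer w0 := by
    intro θ v
    rw [hw0]
    show Real.exp (xyEn _ _ _) = Real.exp (xyEn _ _ θ)
    rw [xyEn_per]
  have ph : XyPer wh := by
    intro θ v
    rw [hwh]
    show Real.exp (xyEn _ _ _) = Real.exp (xyEn _ _ θ)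
    rw [xyEn_per]
  have pf : XyPer f := by
    intro θ v
    rw [hf]
    have := mag_sin_per θ v [a, c]
    simpa using this
  obtain ⟨F, hF⟩ : ∃ F : (W → ℝ) × (W → ℝ) → ℝ, F = fun p => (f p.1 - f p.2) * (w0 p.1 * wh p.2) := ⟨_, rfl⟩
  have hFc : Continuous F := by
    rw [hF]
    exact ((nf.1.comp continuous_fst).sub (nf.1.comp continuous_snd)).mul
      ((n0.1.comp continuous_fst).mul (nh.1.comp continuous_snd))
  have h1 : ∀ θ', XyPer fun θ => F (θ, θ') := by
    intro θ' θ v
    rw [hF]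
    show (f _ - f θ') * (w0 _ * wh θ') = (f θ - f θ') * (w0 θ * wh θ')
    rw [p0 θ v, pf θ v]
  have h2 : ∀ θ, XyPer fun θ' => F (θ, θ') := by
    intro θ θ' v
    rw [hF]
    show (f θ - f _) * (w0 θ * wh _) = (f θ - f θ') * (w0 θ * wh θ')
    rw [ph θ' v, pf θ' v]
  have hdup := xy_dup F hFc h1 h2
  have hR : 0 ≤ ∫ p, F (p.1 + p.2, p.1 - p.2) ∂((xyAng W).prod (xyAng W)) := by
    refine le_of_le_of_eq (mag_dn_dup_nonneg J hJ h hh a c) ?_
    congr 1
    funext p
    rw [hF, hw0, hwh, hf]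
    simp only [← Real.exp_add, mag_dn_en, Pi.add_apply, Pi.sub_apply, Real.sin_add, Real.sin_sub]
    ring
  have i0 : Integrable (fun θ => 1 * w0 θ) (xyAng W) := (xyNice_one.mul n0).integrable
  have ih : Integrable (fun θ => 1 * wh θ) (xyAng W) := (xyNice_one.mul nh).integrable
  have if0 : Integrable (fun θ => f θ * w0 θ) (xyAng W) := (nf.mul n0).integrable
  have ifh : Integrable (fun θ => f θ * wh θ) (xyAng W) := (nf.mul nh).integrable
  have hL : ∫ p, F p ∂((xyAng W).prod (xyAng W))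
      = (∫ θ, f θ * w0 θ ∂xyAng W) * (∫ θ, 1 * wh θ ∂xyAng W)
        - (∫ θ, 1 * w0 θ ∂xyAng W) * (∫ θ, f θ * wh θ ∂xyAng W) := by
    have e1 : ∀ p : (W → ℝ) × (W → ℝ), F p = (f p.1 * w0 p.1) * (1 * wh p.2) - (1 * w0 p.1) * (f p.2 * wh p.2) := by
      intro p
      rw [hF]
      ring
    simp only [e1]
    rw [integral_sub (if0.mul_prod ih) (i0.mul_prod ifh),
      integral_prod_mul (fun θ => f θ * w0 θ) (fun θ => 1 * wh θ),
      integral_prod_mul (fun θ => 1 * w0 θ) (fun θ => f θ * wh θ)]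
  rw [← hdup, hL] at hR
  unfold xyPart xyInt
  rw [hw0, hwh, hf] at hR
  linarith

include hJ hh in
/-- L-MAG-DN. -/
theorem mag_dn (a c : W) :
    xyEx magSys (Sum.elim J h) (fun θ => Real.sin (θ a) * Real.sin (θ c)) ≤
      xyEx magSys (Sum.elim J 0) fun θ => Real.sin (θ a) * Real.sin (θ c) := by
  unfold xyEx
  rw [div_le_div_iff₀ (xyPart_pos _ _) (xyPart_pos _ _)]
  exact mag_dn_int J hJ h hh a c

/-! ### (ROT) -/

theorem magSys_en_zero (θ : W → ℝ) : xyEn magSys (Sum.elim J 0) θ = xyEn xyBond J θ := by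
  unfold xyEn magSys
  rw [Fintype.sum_sum_type]
  simp

theorem magSys_ex_zero (f : (W → ℝ) → ℝ) : xyEx magSys (Sum.elim J 0) f = xyEx xyBond J f := by
  unfold xyEx xyPart xyInt
  simp only [magSys_en_zero]

theorem mag_ph_del (a : W) (θ : W → ℝ) : xyPh (xyDel a) θ = θ a := by
  simp [xyPh, xyDel, Pi.single_apply]

include hJ in
/-- L-MAG-ROT. -/
theorem mag_rot (a c : W) :
    xyEx magSys (Sum.elim J 0) (fun θ => Real.sin (θ a) * Real.sin (θ c)) = xyTwo J a c / 2 := by
  rw [magSys_ex_zero]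
  have h0 : xyChar xyBond J (xyDel a + xyDel c) = 0 := by
    refine xyChar_eq_zero_of_cnt _ _ hJ _ fun l _ => ?_
    refine xyCntB_eq_zero_of_sum l _ ?_
    simp [xyDel, Finset.sum_add_distrib]
  have e : (fun θ : W → ℝ => Real.sin (θ a) * Real.sin (θ c))
      = fun θ => (1 / 2 : ℝ) * Real.cos (xyPh (xyDel a - xyDel c) θ) + (-1 / 2 : ℝ) * Real.cos (xyPh (xyDel a + xyDel c) θ) := by
    funext θ
    rw [xyPh_sub, xyPh_add, mag_ph_del, mag_ph_del, Real.cos_sub, Real.cos_add]
    ring
  rw [e, xyEx_add _ _ ((xyNice_cos _).const_mul _) ((xyNice_cos _).const_mul _), xyEx_const_mul, xyEx_const_mul]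
  unfold xyChar at h0
  rw [h0]
  unfold xyTwo xyCh xyChar
  ring

include hJ hh in
/-- from `mag_dn`, `mag_rot`. -/
theorem mag_sn_sn_le (p q : Option W) :
    xyEx magSys (Sum.elim J h) (fun θ => magSn p θ * magSn q θ) ≤ magTwo J p q / 2 := by
  have hz : xyEx magSys (Sum.elim J h) (fun _ => (0 : ℝ)) = 0 := by simp [xyEx, xyInt]
  rcases p with _ | a
  · simp only [magSn, zero_mul, magTwo, zero_div]; exact hz.le
  rcases q with _ | c
  · simp only [magSn, mul_zero, magTwo, zero_div]; exact hz.le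
  · simp only [magSn, magTwo]
    exact (mag_dn J hJ h hh a c).trans (mag_rot J hJ a c).le

/-! ### (SS) -/

theorem mag_sin_del (p : Option W) (θ : W → ℝ) : Real.sin (xyPh (magDel p) θ) = magSn p θ := by
  rcases p with _ | a
  · simp [magDel, magSn, xyPh_zero]
  · simp [magDel, magSn, mag_ph_del]

theorem mag_cos_del (p : Option W) (θ : W → ℝ) : Real.cos (xyPh (magDel p) θ) = magCs p θ := by
  rcases p with _ | a
  · simp [magDel, magCs, xyPh_zero]
  · simp [magDel, magCs, mag_ph_del]

include hJ hh in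
/-- L-MAG-SS: **the sine-sine bound**. -/
theorem mag_sinsin (x y u v : Option W) :
    |xyChar magSys (Sum.elim J h) ((magDel x - magDel y) + (magDel u - magDel v))
        - xyChar magSys (Sum.elim J h) ((magDel x - magDel y) - (magDel u - magDel v))| ≤
      magTwo J x u + magTwo J x v + magTwo J y u + magTwo J y v := by
  have nt : ∀ p q p' q' : Option W, XyNice fun θ : W → ℝ => magSn p θ * magSn q θ * (magCs p' θ * magCs q' θ) :=
    fun p q p' q' => ((magNice_sn p).mul (magNice_sn q)).mul ((magNice_cs p').mul (magNice_cs q'))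
  have hb : ∀ p q p' q' : Option W,
      |xyEx magSys (Sum.elim J h) fun θ => magSn p θ * magSn q θ * (magCs p' θ * magCs q' θ)| ≤ magTwo J p q / 2 :=
    fun p q p' q' => (mag_flip J hJ h hh p q p' q').trans (mag_sn_sn_le J hJ h hh p q)
  have e : xyChar magSys (Sum.elim J h) ((magDel x - magDel y) + (magDel u - magDel v))
        - xyChar magSys (Sum.elim J h) ((magDel x - magDel y) - (magDel u - magDel v))
      = (-2) * xyEx magSys (Sum.elim J h) (fun θ => magSn x θ * magSn u θ * (magCs y θ * magCs v θ))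
        + (2 * xyEx magSys (Sum.elim J h) (fun θ => magSn x θ * magSn v θ * (magCs y θ * magCs u θ))
        + (2 * xyEx magSys (Sum.elim J h) (fun θ => magSn y θ * magSn u θ * (magCs x θ * magCs v θ))
        + (-2) * xyEx magSys (Sum.elim J h) (fun θ => magSn y θ * magSn v θ * (magCs x θ * magCs u θ)))) := by
    simp only [← xyEx_const_mul]
    rw [← xyEx_add _ _ ((nt _ _ _ _).const_mul _) ((nt _ _ _ _).const_mul _),
      ← xyEx_add _ _ ((nt _ _ _ _).const_mul _) (((nt _ _ _ _).const_mul _).add ((nt _ _ _ _).const_mul _)),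
      ← xyEx_add _ _ ((nt _ _ _ _).const_mul _)
        (((nt _ _ _ _).const_mul _).add (((nt _ _ _ _).const_mul _).add ((nt _ _ _ _).const_mul _)))]
    unfold xyChar
    have e2 : xyEx magSys (Sum.elim J h) (fun θ => Real.cos (xyPh ((magDel x - magDel y) + (magDel u - magDel v)) θ))
        - xyEx magSys (Sum.elim J h) (fun θ => Real.cos (xyPh ((magDel x - magDel y) - (magDel u - magDel v)) θ))
        = xyEx magSys (Sum.elim J h) (fun θ => Real.cos (xyPh ((magDel x - magDel y) + (magDel u - magDel v)) θ)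
          + (-1) * Real.cos (xyPh ((magDel x - magDel y) - (magDel u - magDel v)) θ)) := by
      rw [xyEx_add _ _ (xyNice_cos _) ((xyNice_cos _).const_mul _), xyEx_const_mul]
      ring
    rw [e2]
    congr 1
    funext θ
    rw [xyPh_add, xyPh_sub (magDel x - magDel y), Real.cos_add, Real.cos_sub, xyPh_sub, xyPh_sub, Real.sin_sub, Real.sin_sub]
    simp only [mag_sin_del, mag_cos_del]
    ring
  rw [e]
  have b1 := abs_le.1 (hb x u y v)
  have b2 := abs_le.1 (hb x v y u)
  have b3 := abs_le.1 (hb y u x v)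
  have b4 := abs_le.1 (hb y v x u)
  rw [abs_le]
  constructor <;> linarith [b1.1, b1.2, b2.1, b2.2, b3.1, b3.2, b4.1, b4.2]

theorem mag_ineq_eqns_cite : True := by
  have := @MagEven.eq_1.{0}
  have := @magCf.eq_1.{0}
  have := @magUcc.eq_1.{0}
  have := @magMf.eq_1.{0}
  have := @magDa.eq_1.{0}
  trivial

end

end Claimed.Agent.R285
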