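import Claimed.Agent.R285.Mag.Dual
import Claimed.Agent.R285.Mag.Cov
import Claimed.Agent.R285.Mag.Ineq

/-!
# ROW 285, MAG 5: the free height square and its dual spin box (owner helper30; NO sorry in this file)

Heights on `square m` (free, corner pinned) are dual to rotators on the faces `sqFaces m = [1,m-1]²` with ALL exterior faces grounded (angle `0`): nearest neighbour coupling `b` plus the field `b · #(exterior bonds)` on the boundary faces.
-/

set_option autoImplicit false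

namespace Claimed.Agent.R285

open MeasureTheory Filter Topology Claims.C0459

noncomputable section

/-! ## sums in coordinates -/

theorem sq_range_filter (m : ℕ) (G : ℕ → ℝ) :
    ∑ x ∈ Finset.range m, (if x + 1 < m then G x else 0) = ∑ x ∈ Finset.range (m - 1), G x := by
  rw [← Finset.sum_filter]
  congr 1
  ext x
  simp only [Finset.mem_filter, Finset.mem_range]
  omega

theorem sq_sum_edges (m : ℕ) (Ψ : MagBond → ℝ) :
    ∑ e : (square m).E, Ψ (sqBond e) =
      ∑ x ∈ Finset.range (m - 1), ∑ y ∈ Finset.range m, Ψ (((x : ℤ), (y : ℤ)), true)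
        + ∑ x ∈ Finset.range m, ∑ y ∈ Finset.range (m - 1), Ψ (((x : ℤ), (y : ℤ)), false) := by
  classical
  let p : (Fin m × Fin m) × Bool → Prop := fun e => if e.2 then e.1.1.1 + 1 < m else e.1.2.1 + 1 < m
  let F : (Fin m × Fin m) × Bool → ℝ := fun e => Ψ (((e.1.1.1 : ℤ), (e.1.2.1 : ℤ)), e.2)
  have h1 : ∑ e : (square m).E, Ψ (sqBond e) = ∑ e : {e // p e}, F e.1 := rfl
  rw [h1, ← Finset.sum_subtype (Finset.univ.filter p) (by simp) F, Finset.sum_filter, Fintype.sum_prod_type]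
  simp only [Fintype.sum_bool, Fintype.sum_prod_type, Finset.sum_add_distrib]
  congr 1
  · have e1 : ∀ x y : Fin m, (if (if True then x.1 + 1 < m else y.1 + 1 < m) then F ((x, y), true) else 0) =
        if x.1 + 1 < m then Ψ (((x.1 : ℤ), (y.1 : ℤ)), true) else 0 := by
      intro x y
      by_cases h : x.1 + 1 < m
      · rw [if_pos (by simpa using h), if_pos h]
      · rw [if_neg (by simpa using h), if_neg h]
    rw [Finset.sum_congr rfl fun x _ => Finset.sum_congr rfl fun y _ => e1 x y,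
      Fin.sum_univ_eq_sum_range (fun x => ∑ y : Fin m, if x + 1 < m then Ψ (((x : ℤ), (y.1 : ℤ)), true) else 0) m,
      ← sq_range_filter]
    refine Finset.sum_congr rfl fun x _ => ?_
    rw [Fin.sum_univ_eq_sum_range (fun y => if x + 1 < m then Ψ (((x : ℤ), (y : ℤ)), true) else 0) m]
    split_ifs <;> simp
  · have e1 : ∀ x y : Fin m, (if (if false = true then x.1 + 1 < m else y.1 + 1 < m) then F ((x, y), false) else 0) =
        if y.1 + 1 < m then Ψ (((x.1 : ℤ), (y.1 : ℤ)), false) else 0 := by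
      intro x y
      by_cases h : y.1 + 1 < m
      · rw [if_pos (by simpa using h), if_pos h]
      · rw [if_neg (by simpa using h), if_neg h]
    rw [Finset.sum_congr rfl fun x _ => Finset.sum_congr rfl fun y _ => e1 x y,
      Fin.sum_univ_eq_sum_range (fun x => ∑ y : Fin m, if y.1 + 1 < m then Ψ (((x : ℤ), (y.1 : ℤ)), false) else 0) m]
    refine Finset.sum_congr rfl fun x _ => ?_
    rw [Fin.sum_univ_eq_sum_range (fun y => if y + 1 < m then Ψ (((x : ℤ), (y : ℤ)), false) else 0) m, sq_range_filter]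

theorem sq_sum_faces (m : ℕ) (F : ℤ × ℤ → ℝ) :
    ∑ p ∈ sqFaces m, F p = ∑ x ∈ Finset.range (m - 1), ∑ y ∈ Finset.range (m - 1), F ((x : ℤ) + 1, (y : ℤ) + 1) := by
  have h : ∀ G : ℤ → ℝ, ∑ i ∈ Finset.Icc (1 : ℤ) ((m : ℤ) - 1), G i = ∑ x ∈ Finset.range (m - 1), G ((x : ℤ) + 1) := by
    intro G
    symm
    refine Finset.sum_nbij' (fun x => (x : ℤ) + 1) (fun i => (i - 1).toNat) ?_ ?_ ?_ ?_ ?_
    · intro x hx
      simp only [Finset.mem_range] at hx
      simp only [Finset.mem_Icc]; omega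
    · intro i hi
      simp only [Finset.mem_Icc] at hi
      simp only [Finset.mem_range]; omega
    · intro x _; simp
    · intro i hi
      simp only [Finset.mem_Icc] at hi
      omega
    · intro x _; rfl
  unfold sqFaces
  rw [Finset.sum_product, h]
  exact Finset.sum_congr rfl fun x _ => h _


theorem sqBond_injective (m : ℕ) : Function.Injective (sqBond (m := m)) := by
  intro e f h
  unfold sqBond at h
  simp only [Prod.mk.injEq, Nat.cast_inj] at h
  obtain ⟨⟨h1, h2⟩, h3⟩ := h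
  apply Subtype.ext
  apply Prod.ext
  · exact Prod.ext (Fin.ext h1) (Fin.ext h2)
  · exact h3

/-! ## exactness -/

theorem magDel_opt (Λ : Finset (ℤ × ℤ)) (p : ℤ × ℤ) (z : Λ) : magDel (magOpt Λ p) z = if z.1 = p then 1 else 0 := by
  unfold magOpt
  by_cases hp : p ∈ Λ
  · rw [dif_pos hp]
    simp only [magDel, xyDel, Pi.single_apply]
    by_cases h : z.1 = p
    · rw [if_pos h, if_pos (Subtype.ext h)]
    · rw [if_neg h, if_neg fun h' => h (congrArg Subtype.val h')]
  · rw [dif_neg hp]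
    have : z.1 ≠ p := fun h => hp (h ▸ z.2)
    rw [if_neg this]
    rfl

theorem sq_edge_cases {m : ℕ} (e : (square m).E) :
    (∃ (x y : ℕ) (hx : x + 1 < m) (hy : y < m), e = sqH x y hx hy) ∨ ∃ (x y : ℕ) (hx : x < m) (hy : y + 1 < m), e = sqU x y hx hy := by
  obtain ⟨⟨⟨⟨x, hx⟩, ⟨y, hy⟩⟩, dir⟩, h⟩ := e
  cases dir
  · right
    exact ⟨x, y, hx, by simpa using h, rfl⟩
  · left
    exact ⟨x, y, by simpa using h, hy, rfl⟩

theorem sqH_inj {m : ℕ} {x y x' y' : ℕ} {hx : x + 1 < m} {hy : y < m} {hx' : x' + 1 < m} {hy' : y' < m} :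
    sqH x y hx hy = sqH x' y' hx' hy' ↔ x = x' ∧ y = y' := by
  constructor
  · intro h
    have := congrArg sqBond h
    simp only [sqBond, sqH, Prod.mk.injEq, Nat.cast_inj, and_true] at this
    exact this
  · rintro ⟨rfl, rfl⟩; rfl

theorem sqU_inj {m : ℕ} {x y x' y' : ℕ} {hx : x < m} {hy : y + 1 < m} {hx' : x' < m} {hy' : y' + 1 < m} :
    sqU x y hx hy = sqU x' y' hx' hy' ↔ x = x' ∧ y = y' := by
  constructor
  · intro h
    have := congrArg sqBond h
    simp only [sqBond, sqU, Prod.mk.injEq, Nat.cast_inj, and_true] at this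
    exact this
  · rintro ⟨rfl, rfl⟩; rfl

theorem sqH_ne_sqU {m : ℕ} {x y x' y' : ℕ} {hx : x + 1 < m} {hy : y < m} {hx' : x' < m} {hy' : y' + 1 < m} :
    sqH x y hx hy ≠ sqU x' y' hx' hy' := by
  intro h
  have := congrArg sqBond h
  simp [sqBond, sqH, sqU] at this

theorem sq_face_mem {m : ℕ} (x y : ℕ) (hx : x + 1 < m) (hy : y + 1 < m) : (((x : ℤ) + 1, (y : ℤ) + 1) : ℤ × ℤ) ∈ sqFaces m := by
  simp only [sqFaces, Finset.mem_product, Finset.mem_Icc]
  omega

theorem magP_true (p : ℤ × ℤ) : magP (p, true) = (p.1 + 1, p.2 + 1) := rfl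
theorem magM_true (p : ℤ × ℤ) : magM (p, true) = (p.1 + 1, p.2) := rfl
theorem magP_false (p : ℤ × ℤ) : magP (p, false) = (p.1, p.2 + 1) := rfl
theorem magM_false (p : ℤ × ℤ) : magM (p, false) = (p.1 + 1, p.2 + 1) := rfl
theorem sqBond_H {m : ℕ} (x y : ℕ) (hx : x + 1 < m) (hy : y < m) : sqBond (sqH x y hx hy) = (((x : ℤ), (y : ℤ)), true) := rfl
theorem sqBond_U {m : ℕ} (x y : ℕ) (hx : x < m) (hy : y + 1 < m) : sqBond (sqU x y hx hy) = (((x : ℤ), (y : ℤ)), false) := rfl

open Classical in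
/-- the coefficient of the face `(x+1,y+1)` in the character of an edge. -/
theorem sqD_face {m : ℕ} (x y : ℕ) (hx : x + 1 < m) (hy : y + 1 < m) (e : (square m).E) :
    sqD m e ⟨_, sq_face_mem x y hx hy⟩ =
      (if e = sqH x y hx (by omega) then 1 else 0) + (if e = sqU (x + 1) y hx hy then 1 else 0)
      - (if e = sqH x (y + 1) hx hy then 1 else 0) - (if e = sqU x y (by omega) hy then 1 else 0) := by
  unfold sqD magVec
  rw [Pi.sub_apply, magDel_opt, magDel_opt]
  rcases sq_edge_cases e with ⟨a, c, ha, hc, rfl⟩ | ⟨a, c, ha, hc, rfl⟩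
  · simp only [sqH_inj, sqH_ne_sqU, if_false]
    simp only [sqBond_H, magP_true, magM_true, Prod.mk.injEq]
    split_ifs <;> omega
  · simp only [sqU_inj, sqH_ne_sqU.symm, if_false]
    simp only [sqBond_U, magP_false, magM_false, Prod.mk.injEq]
    split_ifs <;> omega

theorem magDiv_apply {W E : Type*} [Fintype E] (d : E → W → ℤ) (k : E → ℤ) (z : W) : magDiv d k z = ∑ e, k e * d e z := by
  unfold magDiv
  simp [Finset.sum_apply]

/-- the divergence at a face is the circulation around it. -/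
theorem sq_div_face {m : ℕ} (k : (square m).E → ℤ) (x y : ℕ) (hx : x + 1 < m) (hy : y + 1 < m) :
    magDiv (sqD m) k ⟨_, sq_face_mem x y hx hy⟩ =
      k (sqH x y hx (by omega)) + k (sqU (x + 1) y hx hy) - k (sqH x (y + 1) hx hy) - k (sqU x y (by omega) hy) := by
  classical
  rw [magDiv_apply, Finset.sum_congr rfl fun e _ => by rw [sqD_face x y hx hy e]]
  simp only [mul_sub, mul_add, mul_ite, mul_one, mul_zero, Finset.sum_sub_distrib, Finset.sum_add_distrib,
    Finset.sum_ite_eq', Finset.mem_univ, if_true]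

theorem sq_face_cases {m : ℕ} (z : sqFaces m) : ∃ (x y : ℕ) (hx : x + 1 < m) (hy : y + 1 < m), z = ⟨_, sq_face_mem x y hx hy⟩ := by
  obtain ⟨⟨i, j⟩, hz⟩ := z
  have hz' := hz
  simp only [sqFaces, Finset.mem_product, Finset.mem_Icc] at hz'
  refine ⟨(i - 1).toNat, (j - 1).toNat, by omega, by omega, ?_⟩
  apply Subtype.ext
  apply Prod.ext
  · show i = ((i - 1).toNat : ℤ) + 1
    omega
  · show j = ((j - 1).toNat : ℤ) + 1
    omega


theorem sq_gz_H {m : ℕ} (h : (square m).V → ℤ) (x y : ℕ) (hx : x + 1 < m) (hy : y < m) :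
    (square m).gz h (sqH x y hx hy) = h (sqV (x + 1) y hx hy) - h (sqV x y (by omega) hy) := rfl

theorem sq_gz_U {m : ℕ} (h : (square m).V → ℤ) (x y : ℕ) (hx : x < m) (hy : y + 1 < m) :
    (square m).gz h (sqU x y hx hy) = h (sqV x (y + 1) hx hy) - h (sqV x y hx (by omega)) := rfl

/-- gradients are divergence free. -/
theorem sq_div_gz {m : ℕ} (h : (square m).V → ℤ) : magDiv (sqD m) ((square m).gz h) = 0 := by
  funext z
  obtain ⟨x, y, hx, hy, rfl⟩ := sq_face_cases z
  rw [sq_div_face _ x y hx hy, sq_gz_H, sq_gz_H, sq_gz_U, sq_gz_U]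
  simp only [Pi.zero_apply]
  ring

/-- a height with zero gradient is constant. -/
theorem sq_const {m : ℕ} (hm : 0 < m) (g : (square m).V → ℤ) (hg : (square m).gz g = 0) (v : (square m).V) : g v = g (sqO m hm) := by
  have hH : ∀ (x y : ℕ) (hx : x + 1 < m) (hy : y < m), g (sqV (x + 1) y hx hy) = g (sqV x y (by omega) hy) := by
    intro x y hx hy
    have := congrFun hg (sqH x y hx hy)
    rw [sq_gz_H] at this
    simp only [Pi.zero_apply] at this
    omega
  have hU : ∀ (x y : ℕ) (hx : x < m) (hy : y + 1 < m), g (sqV x (y + 1) hx hy) = g (sqV x y hx (by omega)) := by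
    intro x y hx hy
    have := congrFun hg (sqU x y hx hy)
    rw [sq_gz_U] at this
    simp only [Pi.zero_apply] at this
    omega
  have h1 : ∀ (x : ℕ) (hx : x < m), g (sqV x 0 hx hm) = g (sqO m hm) := by
    intro x
    induction x with
    | zero => intro _; rfl
    | succ x ih => intro hx; rw [hH x 0 hx hm, ih]
  have h2 : ∀ (y x : ℕ) (hx : x < m) (hy : y < m), g (sqV x y hx hy) = g (sqO m hm) := by
    intro y
    induction y with
    | zero => intro x hx _; exact h1 x hx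
    | succ y ih => intro x hx hy; rw [hU x y hx hy, ih]
  obtain ⟨⟨x, hx⟩, ⟨y, hy⟩⟩ := v
  exact h2 y x hx hy

/-- total versions of the flow on horizontal / vertical bonds. -/
def sqKH {m : ℕ} (k : (square m).E → ℤ) (x y : ℕ) : ℤ := if h : x + 1 < m ∧ y < m then k (sqH x y h.1 h.2) else 0
def sqKU {m : ℕ} (k : (square m).E → ℤ) (x y : ℕ) : ℤ := if h : x < m ∧ y + 1 < m then k (sqU x y h.1 h.2) else 0

/-- the potential of a flow: along the bottom row, then up. -/
def sqPot {m : ℕ} (k : (square m).E → ℤ) (x y : ℕ) : ℤ :=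
  ∑ x' ∈ Finset.range x, sqKH k x' 0 + ∑ y' ∈ Finset.range y, sqKU k x y'

theorem sqPot_H {m : ℕ} (k : (square m).E → ℤ) (hk : magDiv (sqD m) k = 0) (x : ℕ) (hx : x + 1 < m) (y : ℕ) (hy : y < m) :
    sqPot k (x + 1) y - sqPot k x y = sqKH k x y := by
  induction y with
  | zero => simp [sqPot, Finset.sum_range_succ]
  | succ y ih =>
    have ih' := ih (by omega)
    have hf := congrFun hk ⟨_, sq_face_mem x y hx hy⟩
    rw [sq_div_face k x y hx hy] at hf
    simp only [Pi.zero_apply] at hf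
    have e1 : sqKH k x y = k (sqH x y hx (by omega)) := by unfold sqKH; rw [dif_pos ⟨hx, by omega⟩]
    have e2 : sqKH k x (y + 1) = k (sqH x (y + 1) hx hy) := by unfold sqKH; rw [dif_pos ⟨hx, hy⟩]
    have e3 : sqKU k (x + 1) y = k (sqU (x + 1) y hx hy) := by unfold sqKU; rw [dif_pos ⟨hx, hy⟩]
    have e4 : sqKU k x y = k (sqU x y (by omega) hy) := by unfold sqKU; rw [dif_pos ⟨by omega, hy⟩]
    have s1 : sqPot k (x + 1) (y + 1) = sqPot k (x + 1) y + sqKU k (x + 1) y := by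
      unfold sqPot; rw [Finset.sum_range_succ _ y]; ring
    have s2 : sqPot k x (y + 1) = sqPot k x y + sqKU k x y := by
      unfold sqPot; rw [Finset.sum_range_succ _ y]; ring
    rw [s1, s2, e2]
    rw [e1] at ih'
    rw [e3, e4]
    omega

/-- **the discrete Poincare lemma on the square**: divergence free flows of the dual system are the gradients of the heights pinned at the corner. -/
theorem sq_exact (m : ℕ) (hm : 0 < m) : MagExact (square m) {sqO m hm} (sqD m) := by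
  constructor
  · intro k
    constructor
    · intro hk
      let h : (square m).V → ℤ := fun v => sqPot k (v.1 : Fin m).1 (v.2 : Fin m).1
      have h0 : ∀ v ∈ ({sqO m hm} : Set (square m).V), h v = 0 := by
        intro v hv
        rw [Set.mem_singleton_iff] at hv
        subst hv
        simp [h, sqPot, sqO]
      refine ⟨⟨h, h0⟩, ?_⟩
      funext e
      rcases sq_edge_cases e with ⟨x, y, hx, hy, rfl⟩ | ⟨x, y, hx, hy, rfl⟩
      · rw [sq_gz_H]
        show sqPot k (x + 1) y - sqPot k x y = _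
        rw [sqPot_H k hk x hx y hy]
        unfold sqKH; rw [dif_pos ⟨hx, hy⟩]
      · rw [sq_gz_U]
        show sqPot k x (y + 1) - sqPot k x y = _
        unfold sqPot
        rw [Finset.sum_range_succ _ y]
        unfold sqKU
        rw [dif_pos ⟨hx, hy⟩]
        ring
    · rintro ⟨h, rfl⟩
      exact sq_div_gz h.1
  · intro h h' hh
    apply Subtype.ext
    funext v
    have hg : (square m).gz (h.1 - h'.1) = 0 := by
      funext e
      have := congrFun hh e
      simp only [HGraph.gz, Pi.sub_apply, Pi.zero_apply] at this ⊢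
      omega
    have := sq_const hm (h.1 - h'.1) hg v
    have a1 := h.2 (sqO m hm) rfl
    have a2 := h'.2 (sqO m hm) rfl
    simp only [Pi.sub_apply, a1, a2] at this
    omega


/-! ## the energy -/

/-- extension of the angles by the ground value `0`. -/
def magExt (Λ : Finset (ℤ × ℤ)) (θ : Λ → ℝ) (z : ℤ × ℤ) : ℝ := if h : z ∈ Λ then θ ⟨z, h⟩ else 0

theorem magExt_mem {Λ : Finset (ℤ × ℤ)} (θ : Λ → ℝ) {z : ℤ × ℤ} (hz : z ∈ Λ) : magExt Λ θ z = θ ⟨z, hz⟩ := by
  unfold magExt; rw [dif_pos hz]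

theorem magExt_not_mem {Λ : Finset (ℤ × ℤ)} (θ : Λ → ℝ) {z : ℤ × ℤ} (hz : z ∉ Λ) : magExt Λ θ z = 0 := by
  unfold magExt; rw [dif_neg hz]

theorem xyPh_magDel_opt (Λ : Finset (ℤ × ℤ)) (p : ℤ × ℤ) (θ : Λ → ℝ) : xyPh (magDel (magOpt Λ p)) θ = magExt Λ θ p := by
  unfold magOpt
  by_cases hp : p ∈ Λ
  · rw [dif_pos hp, magExt_mem θ hp]
    exact xyPh_del _ θ
  · rw [dif_neg hp, magExt_not_mem θ hp]
    exact xyPh_zero θ

theorem xyPh_magVec (Λ : Finset (ℤ × ℤ)) (β : MagBond) (θ : Λ → ℝ) :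
    xyPh (magVec Λ β) θ = magExt Λ θ (magP β) - magExt Λ θ (magM β) := by
  unfold magVec
  rw [xyPh_sub, xyPh_magDel_opt, xyPh_magDel_opt]

/-- the n.n. energy of `latJ` in oriented form, any finite `Λ`. -/
theorem latJ_energy (b : ℝ) (Λ : Finset (ℤ × ℤ)) (θ : Λ → ℝ) :
    ∑ p : Λ × Λ, latJ b Λ p * Real.cos (θ p.1 - θ p.2) =
      ∑ x ∈ Λ, ((if (x.1 + 1, x.2) ∈ Λ then b * Real.cos (magExt Λ θ x - magExt Λ θ (x.1 + 1, x.2)) else 0)
        + (if (x.1, x.2 + 1) ∈ Λ then b * Real.cos (magExt Λ θ x - magExt Λ θ (x.1, x.2 + 1)) else 0)) := by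
  have h1 : ∑ p : Λ × Λ, latJ b Λ p * Real.cos (θ p.1 - θ p.2)
      = ∑ x ∈ Λ, ∑ y ∈ Λ, (if latAdj x y then b / 2 * Real.cos (magExt Λ θ x - magExt Λ θ y) else 0) := by
    rw [Fintype.sum_prod_type, ← Finset.sum_coe_sort Λ]
    refine Finset.sum_congr rfl fun x _ => ?_
    rw [← Finset.sum_coe_sort Λ]
    refine Finset.sum_congr rfl fun y _ => ?_
    rw [magExt_mem θ x.2, magExt_mem θ y.2]
    simp only [latJ]
    by_cases hxy : latAdj x.1 y.1
    · rw [if_pos hxy, if_pos hxy]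
    · rw [if_neg hxy, if_neg hxy, zero_mul]
  rw [h1, latAdj_sum Λ (fun x y => b / 2 * Real.cos (magExt Λ θ x - magExt Λ θ y))
    (fun x y => by rw [← Real.cos_neg, neg_sub]), Finset.mul_sum]
  refine Finset.sum_congr rfl fun x _ => ?_
  split_ifs <;> ring


/-- the boundary field of the grounded spin box: `b` times the number of exterior neighbours. -/
def sqField (b : ℝ) (m : ℕ) (p : ℤ × ℤ) : ℝ :=
  b * ((if (p.1 + 1, p.2) ∈ sqFaces m then 0 else 1) + (if (p.1, p.2 + 1) ∈ sqFaces m then 0 else 1)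
    + (if p.1 = 1 then 1 else 0) + (if p.2 = 1 then 1 else 0))

theorem sqField_nonneg {b : ℝ} (hb : 0 ≤ b) (m : ℕ) (p : ℤ × ℤ) : 0 ≤ sqField b m p := by
  unfold sqField
  refine mul_nonneg hb ?_
  split_ifs <;> norm_num

/-- a sum with one marked index. -/
theorem sq_sum_mark (n : ℕ) (c : ℝ) (hn : 0 < n) : ∑ y ∈ Finset.range n, (if y = 0 then c else 0) = c := by
  rw [Finset.sum_ite_eq' (Finset.range n) 0 fun _ => c, if_pos (Finset.mem_range.2 hn)]

theorem sq_energy_aux (b : ℝ) (n : ℕ) (θ : sqFaces (n + 1) → ℝ) :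
    xyEn (sqD (n + 1)) (fun _ => b) θ = ∑ p ∈ sqFaces (n + 1),
      (((if (p.1 + 1, p.2) ∈ sqFaces (n + 1) then b * Real.cos (magExt _ θ p - magExt _ θ (p.1 + 1, p.2)) else 0)
        + (if (p.1, p.2 + 1) ∈ sqFaces (n + 1) then b * Real.cos (magExt _ θ p - magExt _ θ (p.1, p.2 + 1)) else 0))
        + sqField b (n + 1) p * Real.cos (magExt _ θ p)) := by
  set t := magExt (sqFaces (n + 1)) θ with ht
  have hmem : ∀ i j : ℤ, (i, j) ∈ sqFaces (n + 1) ↔ (1 ≤ i ∧ i ≤ n) ∧ (1 ≤ j ∧ j ≤ n) := by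
    intro i j
    simp only [sqFaces, Finset.mem_product, Finset.mem_Icc]
    push_cast
    constructor <;> intro h <;> omega
  have hout : ∀ i j : ℤ, ¬ ((1 ≤ i ∧ i ≤ n) ∧ (1 ≤ j ∧ j ≤ n)) → t (i, j) = 0 := by
    intro i j h
    exact magExt_not_mem θ (fun h' => h ((hmem i j).1 h'))
  have h1 : xyEn (sqD (n + 1)) (fun _ => b) θ = ∑ e : (square (n + 1)).E,
      (fun β : MagBond => b * Real.cos (t (magP β) - t (magM β))) (sqBond e) := by
    unfold xyEn sqD
    refine Finset.sum_congr rfl fun e _ => ?_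
    rw [xyPh_magVec]
  rw [h1, sq_sum_edges (n + 1) (fun β : MagBond => b * Real.cos (t (magP β) - t (magM β))), sq_sum_faces]
  simp only [magP_true, magM_true, magP_false, magM_false, Nat.add_sub_cancel]
  -- split off the first row / the first column
  have hA : ∀ x ∈ Finset.range n, ∑ y ∈ Finset.range (n + 1), b * Real.cos (t ((x : ℤ) + 1, (y : ℤ) + 1) - t ((x : ℤ) + 1, (y : ℤ)))
      = ∑ y ∈ Finset.range n, (b * Real.cos (t ((x : ℤ) + 1, (y : ℤ) + 1 + 1) - t ((x : ℤ) + 1, (y : ℤ) + 1))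
          + if y = 0 then b * Real.cos (t ((x : ℤ) + 1, 1)) else 0) := by
    intro x hx
    have hn : 0 < n := lt_of_le_of_lt (Nat.zero_le _) (Finset.mem_range.1 hx)
    rw [Finset.sum_range_succ', Finset.sum_add_distrib, sq_sum_mark n _ hn]
    have e0 : t ((x : ℤ) + 1, (0 : ℤ)) = 0 := hout ((x : ℤ) + 1) 0 (by omega)
    push_cast
    rw [e0]
    simp only [sub_zero]
  have hB : ∑ x ∈ Finset.range (n + 1), ∑ y ∈ Finset.range n, b * Real.cos (t ((x : ℤ), (y : ℤ) + 1) - t ((x : ℤ) + 1, (y : ℤ) + 1))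
      = ∑ x ∈ Finset.range n, ∑ y ∈ Finset.range n, (b * Real.cos (t ((x : ℤ) + 1, (y : ℤ) + 1) - t ((x : ℤ) + 1 + 1, (y : ℤ) + 1))
          + if x = 0 then b * Real.cos (t (1, (y : ℤ) + 1)) else 0) := by
    rw [Finset.sum_range_succ']
    simp only [Finset.sum_add_distrib]
    have e1 : ∑ x ∈ Finset.range n, ∑ y ∈ Finset.range n, (if x = 0 then b * Real.cos (t (1, (y : ℤ) + 1)) else 0)
        = ∑ y ∈ Finset.range n, b * Real.cos (t (((0 : ℕ) : ℤ), (y : ℤ) + 1) - t (((0 : ℕ) : ℤ) + 1, (y : ℤ) + 1)) := by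
      rw [Finset.sum_comm]
      refine Finset.sum_congr rfl fun y hy => ?_
      have hn : 0 < n := lt_of_le_of_lt (Nat.zero_le _) (Finset.mem_range.1 hy)
      rw [sq_sum_mark n _ hn]
      have e0 : t ((0 : ℤ), (y : ℤ) + 1) = 0 := hout 0 ((y : ℤ) + 1) (by omega)
      push_cast
      rw [e0, zero_sub, Real.cos_neg]
    rw [e1]
    push_cast
    rfl
  rw [Finset.sum_congr rfl hA, hB, ← Finset.sum_add_distrib]
  refine Finset.sum_congr rfl fun x hx => ?_
  rw [← Finset.sum_add_distrib]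
  refine Finset.sum_congr rfl fun y hy => ?_
  have hx' : x < n := Finset.mem_range.1 hx
  have hy' : y < n := Finset.mem_range.1 hy
  unfold sqField
  simp only [hmem]
  have c1 : ((x : ℤ) + 1 = 1) ↔ x = 0 := by omega
  have c2 : ((y : ℤ) + 1 = 1) ↔ y = 0 := by omega
  simp only [c1, c2]
  have d1 : ((1 ≤ (x : ℤ) + 1 + 1 ∧ (x : ℤ) + 1 + 1 ≤ n) ∧ 1 ≤ (y : ℤ) + 1 ∧ (y : ℤ) + 1 ≤ n) ↔ x + 1 < n := by omega
  have d2 : ((1 ≤ (x : ℤ) + 1 ∧ (x : ℤ) + 1 ≤ n) ∧ 1 ≤ (y : ℤ) + 1 + 1 ∧ (y : ℤ) + 1 + 1 ≤ n) ↔ y + 1 < n := by omega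
  have z1 : ¬ x + 1 < n → t ((x : ℤ) + 1 + 1, (y : ℤ) + 1) = 0 := fun h => hout _ _ (fun h' => h (d1.1 h'))
  have z2 : ¬ y + 1 < n → t ((x : ℤ) + 1, (y : ℤ) + 1 + 1) = 0 := fun h => hout _ _ (fun h' => h (d2.1 h'))
  have u1 : Real.cos (t ((x : ℤ) + 1, (y : ℤ) + 1 + 1) - t ((x : ℤ) + 1, (y : ℤ) + 1))
      = Real.cos (t ((x : ℤ) + 1, (y : ℤ) + 1) - t ((x : ℤ) + 1, (y : ℤ) + 1 + 1)) := by rw [← Real.cos_neg, neg_sub]
  have w1 : (if y = 0 then b * Real.cos (t ((x : ℤ) + 1, 1)) else 0) = if y = 0 then b * Real.cos (t ((x : ℤ) + 1, (y : ℤ) + 1)) else 0 := by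
    split_ifs with h
    · subst h; simp
    · rfl
  have w2 : (if x = 0 then b * Real.cos (t (1, (y : ℤ) + 1)) else 0) = if x = 0 then b * Real.cos (t ((x : ℤ) + 1, (y : ℤ) + 1)) else 0 := by
    split_ifs with h
    · subst h; simp
    · rfl
  simp only [d1, d2]
  rw [u1, w1, w2]
  by_cases hxn : x + 1 < n <;> by_cases hyn : y + 1 < n
  · simp only [hxn, hyn, if_true]
    split_ifs <;> ring
  · simp only [hxn, hyn, if_true, if_false, z2 hyn, sub_zero]
    split_ifs <;> ring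
  · simp only [hxn, hyn, if_true, if_false, z1 hxn, sub_zero]
    split_ifs <;> ring
  · simp only [hxn, hyn, if_false, z1 hxn, z2 hyn, sub_zero]
    split_ifs <;> ring

/-- the energy of the dual system = nearest neighbour energy of `latJ b (sqFaces m)` + a nonnegative boundary field. -/
theorem sq_energy (b : ℝ) (hb : 0 ≤ b) (m : ℕ) : ∃ h : sqFaces m → ℝ, (∀ z, 0 ≤ h z) ∧
    ∀ θ, xyEn (sqD m) (fun _ => b) θ = xyEn magSys (Sum.elim (latJ b (sqFaces m)) h) θ := by
  refine ⟨fun z => sqField b m z.1, fun z => sqField_nonneg hb m z.1, fun θ => ?_⟩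
  rw [magSys_en, latJ_energy]
  have hf : ∑ z : sqFaces m, sqField b m z.1 * Real.cos (θ z) = ∑ p ∈ sqFaces m, sqField b m p * Real.cos (magExt _ θ p) := by
    rw [← Finset.sum_coe_sort (sqFaces m)]
    refine Finset.sum_congr rfl fun z _ => ?_
    rw [magExt_mem θ z.2]
  rw [hf, ← Finset.sum_add_distrib]
  rcases Nat.eq_zero_or_pos m with h0 | hm
  · subst h0
    have e1 : sqFaces 0 = ∅ := by
      unfold sqFaces; simp
    have : IsEmpty (square 0).E := ⟨fun e => (e.1.1.1 : Fin 0).elim0⟩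
    unfold xyEn
    rw [Finset.univ_eq_empty, Finset.sum_empty]
    symm
    apply Finset.sum_eq_zero
    intro p hp
    rw [e1] at hp
    simp at hp
  · obtain ⟨n, rfl⟩ : ∃ n, m = n + 1 := ⟨m - 1, by omega⟩
    exact sq_energy_aux b n θ


/-- expectations depend on the system through the energy only. -/
theorem xyEx_congr_en {W E E' : Type*} [Fintype W] [Fintype E] [Fintype E'] (d : E → W → ℤ) (J : E → ℝ) (d' : E' → W → ℤ) (J' : E' → ℝ)
    (h : ∀ θ, xyEn d J θ = xyEn d' J' θ) (f : (W → ℝ) → ℝ) : xyEx d J f = xyEx d' J' f := by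
  unfold xyEx xyPart xyInt
  simp only [h]

theorem magTwo_lat (b : ℝ) (Λ : Finset (ℤ × ℤ)) (x y : ℤ × ℤ) : magTwo (latJ b Λ) (magOpt Λ x) (magOpt Λ y) = latTwo b Λ x y := by
  unfold magOpt latTwo
  by_cases hx : x ∈ Λ <;> by_cases hy : y ∈ Λ <;> simp [hx, hy, magTwo]

/-- the sine-sine bound on the dual of the square. -/
theorem sq_sinsin (b : ℝ) (hb : 0 ≤ b) (m : ℕ) (e f : (square m).E) :
    |xyChar (sqD m) (fun _ => b) (sqD m e + sqD m f) - xyChar (sqD m) (fun _ => b) (sqD m e - sqD m f)| ≤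
      latTwo b (sqFaces m) (magP (sqBond e)) (magP (sqBond f)) + latTwo b (sqFaces m) (magP (sqBond e)) (magM (sqBond f))
      + latTwo b (sqFaces m) (magM (sqBond e)) (magP (sqBond f)) + latTwo b (sqFaces m) (magM (sqBond e)) (magM (sqBond f)) := by
  obtain ⟨h, hh, hen⟩ := sq_energy b hb m
  have := mag_sinsin (latJ b (sqFaces m)) (fun p => latJ_nonneg hb _ p) h hh
    (magOpt _ (magP (sqBond e))) (magOpt _ (magM (sqBond e))) (magOpt _ (magP (sqBond f))) (magOpt _ (magM (sqBond f)))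
  simp only [magTwo_lat] at this
  unfold xyChar at this ⊢
  rw [xyEx_congr_en _ _ _ _ hen, xyEx_congr_en _ _ _ _ hen]
  exact this

/-! ## decay -/

theorem magDiv_dl {G : HGraph} {W : Type*} (d : G.E → W → ℤ) (e : G.E) : magDiv d (G.dl e) = d e := by
  classical
  unfold magDiv HGraph.dl
  simp [ite_smul]

/-- the dual sites of two bonds are at least as far apart as the bonds, up to one step. -/
theorem mag_dual_dist (β β' : MagBond) (p q : ℤ × ℤ) (hp : p = magP β ∨ p = magM β) (hq : q = magP β' ∨ q = magM β') :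
    latNorm (β'.1 - β.1) ≤ latNorm (q - p) + 1 := by
  obtain ⟨⟨x, y⟩, dir⟩ := β
  obtain ⟨⟨x', y'⟩, dir'⟩ := β'
  unfold latNorm
  cases dir <;> cases dir' <;> rcases hp with rfl | rfl <;> rcases hq with rfl | rfl <;>
    simp only [magP, magM, Prod.fst_sub, Prod.snd_sub, if_true, Bool.false_eq_true, if_false] <;> omega

theorem sq_latTwo_le {b : ℝ} (hb : 0 < b) (Λ : Finset (ℤ × ℤ)) (β β' : MagBond) (p q : ℤ × ℤ)
    (hp : p = magP β ∨ p = magM β) (hq : q = magP β' ∨ q = magM β') :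
    latTwo b Λ p q ≤ Real.exp (xyMass b) * Real.exp (-(xyMass b * latNorm (β'.1 - β.1))) := by
  refine (latTwo_le_exp hb Λ p q).trans ?_
  rw [← Real.exp_add]
  apply Real.exp_le_exp.2
  have h : (latNorm (β'.1 - β.1) : ℝ) ≤ latNorm (q - p) + 1 := by exact_mod_cast mag_dual_dist β β' p q hp hq
  have := mul_le_mul_of_nonneg_left h (xyMass_nonneg hb)
  linarith

theorem sq_Zs_ne (b : ℝ) (m : ℕ) (hm : 0 < m) : (square m).Zs b {sqO m hm} 0 0 (fun _ => 1) ≠ 0 := by
  rw [mag_Zs_eq (sq_exact m hm)]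
  have h0 : magDiv (sqD m) (0 : (square m).E → ℤ) = 0 := by simp [magDiv]
  rw [h0]
  have h1 : xyInt (sqD m) (fun _ => b) (fun θ => Real.cos (xyPh (0 : sqFaces m → ℤ) θ)) = xyPart (sqD m) (fun _ => b) := by
    unfold xyPart; congr 1; funext θ; rw [xyPh_zero, Real.cos_zero]
  rw [h1]
  have := xyPart_pos (sqD m) (fun _ : (square m).E => b)
  positivity

/-- **exponential decay of the bond covariance of the free height square**, uniformly up to the boundary. -/
theorem sq_cov_decay (b : ℝ) (hb : 0 < b) (m : ℕ) (hm : 0 < m) (e f : (square m).E) :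
    |sqCov b m hm e f| ≤ (2 * Real.pi) ^ 2 * (b + 2 * b ^ 2) * Real.exp (xyMass b)
      * Real.exp (-(xyMass b * latNorm ((sqBond f).1 - (sqBond e).1))) := by
  have hS : ∀ τ : (square m).E → ℤ, Summable fun h : (square m).Conf {sqO m hm} => (square m).wt b τ h.1 :=
    fun τ => mag_wt_summable (sq_exact m hm) b τ
  have hr : ∀ τ, (square m).ratio b {sqO m hm} τ = xyChar (sqD m) (fun _ => b) (magDiv (sqD m) τ) :=
    fun τ => mag_ratio_eq (sq_exact m hm) b τ
  have hμ := xyMass_nonneg hb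
  have hc0 : ∀ v, 0 ≤ xyChar (sqD m) (fun _ => b) v := fun v => xyChar_nonneg _ _ (fun _ => hb.le) v
  have hc1 : ∀ v, xyChar (sqD m) (fun _ => b) v ≤ 1 := fun v => xyChar_le_one _ _ v
  unfold sqCov
  by_cases hef : e = f
  · subst hef
    rw [magEx_gr_sq hS (sq_Zs_ne b m hm), sub_self]
    have hl : latNorm (0 : ℤ × ℤ) = 0 := by simp [latNorm]
    rw [hl]
    simp only [Nat.cast_zero, mul_zero, neg_zero, Real.exp_zero, mul_one, hr]
    set r1 := xyChar (sqD m) (fun _ => b) (magDiv (sqD m) (-(square m).dl e))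
    set r2 := xyChar (sqD m) (fun _ => b) (magDiv (sqD m) ((square m).dl e))
    set r3 := xyChar (sqD m) (fun _ => b) (magDiv (sqD m) (-(2 • (square m).dl e)))
    set r4 := xyChar (sqD m) (fun _ => b) (magDiv (sqD m) (2 • (square m).dl e))
    have a1 := hc0 (magDiv (sqD m) (-(square m).dl e))
    have a2 := hc0 (magDiv (sqD m) ((square m).dl e))
    have a3 := hc0 (magDiv (sqD m) (-(2 • (square m).dl e)))
    have a4 := hc0 (magDiv (sqD m) (2 • (square m).dl e))
    have b1 := hc1 (magDiv (sqD m) (-(square m).dl e))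
    have b2 := hc1 (magDiv (sqD m) ((square m).dl e))
    have b3 := hc1 (magDiv (sqD m) (-(2 • (square m).dl e)))
    have b4 := hc1 (magDiv (sqD m) (2 • (square m).dl e))
    have he : 1 ≤ Real.exp (xyMass b) := Real.one_le_exp hμ
    have hb2 : 0 ≤ b ^ 2 := sq_nonneg b
    have inner : |b / 2 * (r1 + r2) + b ^ 2 / 4 * (r3 - 2 + r4)| ≤ b + 2 * b ^ 2 := by
      rw [abs_le]
      constructor
      · nlinarith [mul_nonneg hb.le (add_nonneg a1 a2), mul_nonneg hb2 (add_nonneg a3 a4)]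
      · nlinarith [mul_nonneg hb.le (sub_nonneg.2 b1), mul_nonneg hb.le (sub_nonneg.2 b2), mul_nonneg hb2 (sub_nonneg.2 b3),
          mul_nonneg hb2 (sub_nonneg.2 b4)]
    rw [abs_mul, abs_of_nonneg (by positivity : (0:ℝ) ≤ (2 * Real.pi) ^ 2)]
    calc (2 * Real.pi) ^ 2 * |b / 2 * (r1 + r2) + b ^ 2 / 4 * (r3 - 2 + r4)|
        ≤ (2 * Real.pi) ^ 2 * (b + 2 * b ^ 2) := by gcongr
      _ = (2 * Real.pi) ^ 2 * (b + 2 * b ^ 2) * 1 := by ring
      _ ≤ _ := by gcongr
  · rw [magEx_gr_gr hS e f hef]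
    simp only [hr]
    have e1 : magDiv (sqD m) ((square m).dl e + (square m).dl f) = sqD m e + sqD m f := by
      rw [magDiv_add, magDiv_dl, magDiv_dl]
    have e2 : magDiv (sqD m) (-(square m).dl e - (square m).dl f) = -(sqD m e + sqD m f) := by
      rw [magDiv_sub, magDiv_neg, magDiv_dl, magDiv_dl]; abel
    have e3 : magDiv (sqD m) ((square m).dl e - (square m).dl f) = sqD m e - sqD m f := by
      rw [magDiv_sub, magDiv_dl, magDiv_dl]
    have e4 : magDiv (sqD m) (-(square m).dl e + (square m).dl f) = -(sqD m e - sqD m f) := by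
      rw [magDiv_add, magDiv_neg, magDiv_dl, magDiv_dl]; abel
    rw [e1, e2, e3, e4, xyChar_neg, xyChar_neg]
    have hss := sq_sinsin b hb.le m e f
    set X := Real.exp (xyMass b) * Real.exp (-(xyMass b * latNorm ((sqBond f).1 - (sqBond e).1))) with hX
    have t1 := sq_latTwo_le hb (sqFaces m) (sqBond e) (sqBond f) _ _ (Or.inl rfl) (Or.inl rfl)
    have t2 := sq_latTwo_le hb (sqFaces m) (sqBond e) (sqBond f) _ _ (Or.inl rfl) (Or.inr rfl)
    have t3 := sq_latTwo_le hb (sqFaces m) (sqBond e) (sqBond f) _ _ (Or.inr rfl) (Or.inl rfl)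
    have t4 := sq_latTwo_le hb (sqFaces m) (sqBond e) (sqBond f) _ _ (Or.inr rfl) (Or.inr rfl)
    have hX0 : 0 ≤ X := by rw [hX]; positivity
    set c1 := xyChar (sqD m) (fun _ => b) (sqD m e + sqD m f)
    set c2 := xyChar (sqD m) (fun _ => b) (sqD m e - sqD m f)
    have h4 : |c1 - c2| ≤ 4 * X := by linarith
    have e5 : (2 * Real.pi) ^ 2 * (b ^ 2 / 4) * (c1 + c1 - c2 - c2) = (2 * Real.pi) ^ 2 * (b ^ 2 / 2) * (c1 - c2) := by ring
    rw [e5, abs_mul, abs_of_nonneg (by positivity : (0:ℝ) ≤ (2 * Real.pi) ^ 2 * (b ^ 2 / 2))]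
    calc (2 * Real.pi) ^ 2 * (b ^ 2 / 2) * |c1 - c2| ≤ (2 * Real.pi) ^ 2 * (b ^ 2 / 2) * (4 * X) := by gcongr
      _ = (2 * Real.pi) ^ 2 * (2 * b ^ 2) * X := by ring
      _ ≤ (2 * Real.pi) ^ 2 * (b + 2 * b ^ 2) * X := by gcongr; linarith
      _ = _ := by rw [hX]; ring


end

end Claimed.Agent.R285
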